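import Mathlib.Analysis.CStarAlgebra.ContinuousLinearMap
import Mathlib.Analysis.CStarAlgebra.Matrix
import Mathlib.Analysis.InnerProductSpace.Completion
import Mathlib.Analysis.InnerProductSpace.StarOrder
import Mathlib.Analysis.SpecialFunctions.Log.ENNRealLog
import Mathlib.Analysis.VonNeumannAlgebra.Basic
import Mathlib.LinearAlgebra.FreeAlgebra
import Mathlib.MeasureTheory.Integral.IntervalIntegral.Basic
import Mathlib.MeasureTheory.Measure.Haar.InnerProductSpace

/-! The definitions of P087, as in the problem text. -/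

set_option autoImplicit false

open MeasureTheory Filter
open scoped ENNReal ComplexOrder TensorProduct

noncomputable section

namespace Vale.Agent.P087L14

section

variable {A H : Type} [Ring A] [StarRing A] [Algebra ℂ A] [StarModule ℂ A]
  [NormedAddCommGroup H] [InnerProductSpace ℂ H] [CompleteSpace H]

/-- The order of operators: `π y - π x` is positive. -/
def Le (π : A →⋆ₐ[ℂ] (H →L[ℂ] H)) (x y : A) : Prop := π x ≤ π y

variable (A H) in
/-- A von Neumann algebra with a faithful normal tracial state: `π` is an isomorphism of the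
`*`-algebra `A` onto a von Neumann algebra `M` on `H`. Normal: `τ` preserves the least upper bounds
of increasing families of positive elements. -/
structure Tracial where
  π : A →⋆ₐ[ℂ] (H →L[ℂ] H)
  inj : Function.Injective π
  vn : ∃ M : VonNeumannAlgebra H, Set.range π = M
  τ : A →ₗ[ℂ] ℂ
  pos : ∀ x, Le π 0 x → 0 ≤ τ x
  one : τ 1 = 1
  tracial : ∀ x y, τ (x * y) = τ (y * x)
  faithful : ∀ x, τ (star x * x) = 0 → x = 0
  normal : ∀ (D : Set A) (s : A), D.Nonempty → DirectedOn (Le π) D → (∀ x ∈ D, Le π 0 x) →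
    (∀ x ∈ D, Le π x s) → (∀ u, (∀ x ∈ D, Le π x u) → Le π s u) → IsLUB (τ '' D) (τ s)

end

/-- `n`-tuples of `k × k` matrices. -/
abbrev Tup (n k : ℕ) : Type := Fin n → Matrix (Fin k) (Fin k) ℂ

/-- `e` is a linear isometry of `ℝ^{n k²}` onto the `n`-tuples of self-adjoint matrices, with the
Euclidean structure `⟨A, B⟩ = ∑_j Tr (A_j B_j)`. -/
def IsChart {n k : ℕ} (e : EuclideanSpace ℝ (Fin (n * k ^ 2)) →ₗ[ℝ] Tup n k) : Prop :=
  (∀ A, A ∈ Set.range e ↔ ∀ j, (A j).IsHermitian) ∧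
    ∀ x y, ∑ j, (e x j * e y j).trace = (inner ℝ x y : ℝ)

/-- A choice of such an isometry. -/
def chart (n k : ℕ) : EuclideanSpace ℝ (Fin (n * k ^ 2)) →ₗ[ℝ] Tup n k := Classical.epsilon IsChart

/-- Lebesgue measure on the `n`-tuples of self-adjoint matrices, identified with `ℝ^{n k²}`. -/
def vol {n k : ℕ} (Γ : Set (Tup n k)) : ℝ≥0∞ := volume (chart n k ⁻¹' Γ)

open scoped Matrix.Norms.L2Operator in
/-- The operator norm of a matrix on the Hilbert space `ℂ^k`. -/
def opNorm {k : ℕ} (B : Matrix (Fin k) (Fin k) ℂ) : ℝ := ‖B‖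

/-- The monomial `x_{i_1} ⋯ x_{i_p}`. -/
def mono {n : ℕ} (w : List (Fin n)) : FreeAlgebra ℂ (Fin n) := (w.map (FreeAlgebra.ι ℂ)).prod

/-- The free difference quotient `∂_j`, linear, given on the basis of monomials. -/
def dq {n : ℕ} (j : Fin n) :
    FreeAlgebra ℂ (Fin n) →ₗ[ℂ] FreeAlgebra ℂ (Fin n) ⊗[ℂ] FreeAlgebra ℂ (Fin n) :=
  (FreeAlgebra.basisFreeMonoid ℂ (Fin n)).constr ℂ fun w => ∑ l : Fin w.toList.length,
    if w.toList.get l = j then mono (w.toList.take l) ⊗ₜ mono (w.toList.drop (l + 1)) else 0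

namespace Tracial

variable {A H : Type} [Ring A] [StarRing A] [Algebra ℂ A] [StarModule ℂ A]
  [NormedAddCommGroup H] [InnerProductSpace ℂ H] [CompleteSpace H] (T : Tracial A H) {n : ℕ}

/-- The operator given by an element of `A`. -/
def op (x : A) : H →L[ℂ] H := T.π x

/-- `Γ_R(X; m, k, ε)`. -/
def Gam (X : Fin n → A) (R : ℝ) (m k : ℕ) (ε : ℝ) : Set (Tup n k) :=
  {B | (∀ j, (B j).IsHermitian ∧ opNorm (B j) ≤ R) ∧
    ∀ w : List (Fin n), 1 ≤ w.length → w.length ≤ m →
      ‖(k : ℂ)⁻¹ * (w.map B).prod.trace - T.τ (w.map X).prod‖ < ε}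

/-- `χ_R(X)`. -/
def chiR (X : Fin n → A) (R : ℝ) : EReal :=
  ⨅ (m : ℕ) (ε : ℝ) (_ : 0 < ε), limsup (fun k : ℕ =>
    ((((k : ℝ) ^ 2)⁻¹ : ℝ) : EReal) * ENNReal.log (vol (T.Gam X R m k ε)) +
      (((n : ℝ) / 2 * Real.log k : ℝ) : EReal)) atTop

/-- The microstates free entropy `χ(X)`. -/
def chi (X : Fin n → A) : EReal := ⨆ (R : ℝ) (_ : 0 < R), T.chiR X R

/-- `W^*(X)`: the elements that lie in every von Neumann algebra that contains the `X_j`. -/
def wstar (X : Fin n → A) : Submodule ℂ A where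
  carrier := {y | ∀ N : VonNeumannAlgebra H, (∀ j, T.op (X j) ∈ N) → T.op y ∈ N}
  add_mem' hy hz N hN := by
    rw [op, map_add]; exact N.toStarSubalgebra.add_mem (hy N hN) (hz N hN)
  zero_mem' N _ := by rw [op, map_zero]; exact N.toStarSubalgebra.zero_mem
  smul_mem' c _ hy N hN := by rw [op, map_smul]; exact N.toStarSubalgebra.smul_mem (hy N hN) c

omit [StarModule ℂ A] in
theorem star_mul_self_pos (x : A) : 0 ≤ T.τ (star x * x) :=
  T.pos _ (by rw [Le, map_zero, map_mul, map_star]; exact star_mul_self_nonneg _)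

theorem tau_star (x : A) : T.τ (star x) = starRingEnd ℂ (T.τ x) := by
  have h0 := (Complex.nonneg_iff.1 (T.star_mul_self_pos x)).2
  have h1 := (Complex.nonneg_iff.1 (T.star_mul_self_pos (x + 1))).2
  have h2 := (Complex.nonneg_iff.1 (T.star_mul_self_pos (x + Complex.I • 1))).2
  simp only [star_add, star_one, star_smul, add_mul, mul_add, mul_one, one_mul, map_add, T.one,
    smul_mul_assoc, mul_smul_comm, map_smul, smul_eq_mul, Complex.add_im, Complex.mul_im,
    Complex.star_def, Complex.conj_I, Complex.I_re, Complex.I_im, Complex.one_im, Complex.neg_re,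
    Complex.neg_im] at h1 h2
  apply Complex.ext
  · rw [Complex.conj_re]; linarith
  · rw [Complex.conj_im]; linarith

/-- `W^*(X)`, to be given the norm `‖y‖₂ = τ(y^* y)^{1/2}`. -/
def Pre (X : Fin n → A) : Type := T.wstar X

instance (X : Fin n → A) : AddCommGroup (T.Pre X) := (T.wstar X).addCommGroup

instance (X : Fin n → A) : Module ℂ (T.Pre X) := (T.wstar X).module

variable {T} in
/-- The element of `A` given by an element of `W^*(X)`. -/
def Pre.val {X : Fin n → A} (y : T.Pre X) : A := Subtype.val y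

/-- The inner product `⟨y, z⟩ = τ(y^* z)` on `W^*(X)`. -/
abbrev core (X : Fin n → A) : PreInnerProductSpace.Core ℂ (T.Pre X) where
  inner y z := T.τ (star y.val * z.val)
  conj_inner_symm y z := by rw [← T.tau_star, star_mul, star_star]
  re_inner_nonneg y := (Complex.nonneg_iff.1 (T.star_mul_self_pos y.val)).1
  add_left x y z := by
    rw [show (x + y).val = x.val + y.val from rfl, star_add, add_mul, map_add]
  smul_left x y r := by
    rw [show (r • x).val = r • x.val from rfl, star_smul, smul_mul_assoc, map_smul]; rfl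

instance (X : Fin n → A) : SeminormedAddCommGroup (T.Pre X) :=
  InnerProductSpace.Core.toSeminormedAddCommGroup (c := T.core X)

instance (X : Fin n → A) : InnerProductSpace ℂ (T.Pre X) := InnerProductSpace.ofCore (T.core X)

/-- `L²(W^*(X), τ)`: the completion of `W^*(X)` in the norm `‖·‖₂`. -/
abbrev L2 (X : Fin n → A) : Type := UniformSpace.Completion (T.Pre X)

/-- `τ(ξ a)` for `ξ ∈ L²`: the continuous extension of `y ↦ τ(y a)`. -/
def pair {X : Fin n → A} (ξ : T.L2 X) (a : A) : ℂ :=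
  UniformSpace.Completion.extension (fun y : T.Pre X => T.τ (y.val * a)) ξ

/-- `P ↦ τ(P(X))`. -/
def ev (X : Fin n → A) : FreeAlgebra ℂ (Fin n) →ₗ[ℂ] ℂ :=
  T.τ ∘ₗ (FreeAlgebra.lift ℂ X).toLinearMap

/-- The value of `τ ⊗ τ` at `∂_j P(X)`. -/
def tdq (X : Fin n → A) (j : Fin n) (P : FreeAlgebra ℂ (Fin n)) : ℂ :=
  LinearMap.mul' ℂ ℂ (TensorProduct.map (T.ev X) (T.ev X) (dq j P))

/-- Conjugate variables: `τ(ξ_j P(X)) = (τ ⊗ τ)(∂_j P(X))` for all polynomials `P` and all `j`. -/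
def IsConj (X : Fin n → A) (ξ : Fin n → T.L2 X) : Prop :=
  ∀ j P, T.pair (ξ j) (FreeAlgebra.lift ℂ X P) = T.tdq X j P

open Classical in
/-- The free Fisher information `Φ^*(X)`. -/
def fisher (X : Fin n → A) : ℝ≥0∞ :=
  if h : ∃ ξ, T.IsConj X ξ then ∑ j, ‖h.choose j‖ₑ ^ 2 else ⊤

/-- `X + √t S`. -/
def flow (X S : Fin n → A) (t : ℝ) : Fin n → A := fun j => X j + ((√t : ℝ) : ℂ) • S j

/-- The integral of the positive part of `n / (1 + t) - Φ^*(X + √t S)`. -/
def posPart (X S : Fin n → A) : ℝ≥0∞ :=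
  ∫⁻ t in Set.Ioi (0 : ℝ), (ENNReal.ofReal (n / (1 + t)) - T.fisher (flow X S t))

/-- The integral of the negative part of `n / (1 + t) - Φ^*(X + √t S)`. -/
def negPart (X S : Fin n → A) : ℝ≥0∞ :=
  ∫⁻ t in Set.Ioi (0 : ℝ), (T.fisher (flow X S t) - ENNReal.ofReal (n / (1 + t)))

/-- The nonmicrostates free entropy `χ^*(X)`. -/
def chiStar (X S : Fin n → A) : EReal :=
  ((1 / 2 : ℝ) : EReal) * ((T.posPart X S : EReal) - (T.negPart X S : EReal)) +
    (((n : ℝ) / 2 * Real.log (2 * Real.pi * Real.exp 1) : ℝ) : EReal)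

/-- Free independence of a family of unital subalgebras. -/
def Free {κ : Type} (B : κ → Subalgebra ℂ A) : Prop :=
  ∀ (p : ℕ) (i : Fin (p + 1) → κ) (a : Fin (p + 1) → A), (∀ k, a k ∈ B (i k)) →
    (∀ k, T.τ (a k) = 0) → (∀ k : Fin p, i k.castSucc ≠ i k.succ) → T.τ (List.ofFn a).prod = 0

/-- `S` is a free family of semicircular elements of variance `1` (self-adjoint, with the
distribution `√(4 - x²) dx / (2π)` on `[-2, 2]`), free from `X`. -/
structure FreeSemi (X S : Fin n → A) : Prop where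
  selfAdjoint : ∀ j, IsSelfAdjoint (S j)
  law : ∀ j (k : ℕ), T.τ (S j ^ k) =
    (∫ x in (-2 : ℝ)..2, x ^ k * ((2 * Real.pi)⁻¹ * √(4 - x ^ 2)) : ℝ)
  free : T.Free fun o : Option (Fin n) =>
    o.elim (Algebra.adjoin ℂ (Set.range X)) fun j => Algebra.adjoin ℂ {S j}

/-- `χ^*(X)` is well defined in `[-∞, ∞)`: conjugate variables are unique, the integrand is
measurable, and its positive part is integrable. -/
structure WellDef (X S : Fin n → A) : Prop where
  unique : ∀ t ξ η, T.IsConj (flow X S t) ξ → T.IsConj (flow X S t) η → ξ = η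
  meas : Measurable fun t => T.fisher (flow X S t)
  fin : T.posPart X S < ⊤

/-- `τ(ξ a)` is `τ(y a)` for `ξ = y` in `W^*(X)`; conjugate variables exist if and only if the
functionals `P(X) ↦ (τ ⊗ τ)(∂_j P(X))` are bounded in the norm `‖·‖₂`. -/
def Bridge (X : Fin n → A) : Prop :=
  (∀ (y : T.Pre X) a, a ∈ T.wstar X → T.pair (y : T.L2 X) a = T.τ (y.val * a)) ∧
    ((∃ ξ, T.IsConj X ξ) ↔ ∃ C : ℝ, ∀ j P, ‖T.tdq X j P‖ ^ 2 ≤
      C * (T.τ (star (FreeAlgebra.lift ℂ X P) * FreeAlgebra.lift ℂ X P)).re)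

/-- `χ^*` has the same value for every tuple `X'` with the moments of `X`, in any tracial von
Neumann algebra, and every choice of the semicircular family. -/
def Indep (X S : Fin n → A) : Prop :=
  ∀ (A' H' : Type) [Ring A'] [StarRing A'] [Algebra ℂ A'] [StarModule ℂ A']
    [NormedAddCommGroup H'] [InnerProductSpace ℂ H'] [CompleteSpace H']
    (T' : Tracial A' H') (X' S' : Fin n → A'), (∀ j, IsSelfAdjoint (X' j)) →
    (∀ w : List (Fin n), T'.τ (w.map X').prod = T.τ (w.map X).prod) → T'.FreeSemi X' S' →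
    T'.WellDef X' S' → T'.chiStar X' S' = T.chiStar X S

end Tracial

/-- The statement of Q1. -/
def Q1 : Prop :=
  ∀ (A H : Type) [Ring A] [StarRing A] [Algebra ℂ A] [StarModule ℂ A]
    [NormedAddCommGroup H] [InnerProductSpace ℂ H] [CompleteSpace H] (T : Tracial A H)
    (n : ℕ) (X S : Fin n → A), 1 ≤ n → (∀ j, IsSelfAdjoint (X j)) → T.FreeSemi X S →
    T.WellDef X S → ⊥ < T.chi X → T.chi X = T.chiStar X S

/-- Some self-adjoint `n`-tuple has `-∞ < χ(X) < χ^*(X) < ∞` and `χ(X) + g ≤ χ^*(X)`. -/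
def Gap (n : ℕ) (g : ℝ) : Prop :=
  ∃ (A H : Type) (_ : Ring A) (_ : StarRing A) (_ : Algebra ℂ A) (_ : StarModule ℂ A)
    (_ : NormedAddCommGroup H) (_ : InnerProductSpace ℂ H) (_ : CompleteSpace H)
    (T : Tracial A H) (X S : Fin n → A), (∀ j, IsSelfAdjoint (X j)) ∧ T.FreeSemi X S ∧
    T.WellDef X S ∧ ⊥ < T.chi X ∧ T.chi X < T.chiStar X S ∧ T.chi X + g ≤ T.chiStar X S ∧
    T.chiStar X S < ⊤

end Vale.Agent.P087L14

end
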