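import Vale.Agent.P087L14.Defs
import Mathlib.Analysis.InnerProductSpace.l2Space
import Mathlib.Analysis.Normed.Lp.lpHolder

/-! The bicommutant theorem, in the sigma-strong form. -/

set_option autoImplicit false
set_option linter.all false

open Filter Topology

noncomputable section

namespace Vale.Agent.P087L14

variable {H : Type} [NormedAddCommGroup H] [InnerProductSpace ℂ H] [CompleteSpace H]

abbrev Hs (H : Type) [NormedAddCommGroup H] : Type := lp (fun _ : ℕ => H) 2

def amp (b : H →L[ℂ] H) : Hs H →L[ℂ] Hs H :=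
  lp.mapCLM 2 (fun _ => b) (norm_nonneg b) fun _ => le_rfl

theorem amp_apply (b : H →L[ℂ] H) (v : Hs H) (i : ℕ) : amp b v i = b (v i) := rfl

theorem amp_inner (b : H →L[ℂ] H) (v w : Hs H) :
    inner ℂ (amp b v) w = inner ℂ v (amp (star b) w) := by
  simp only [lp.inner_eq_tsum, amp_apply, ContinuousLinearMap.star_eq_adjoint,
    ContinuousLinearMap.adjoint_inner_right]

theorem amp_single (b : H →L[ℂ] H) (j : ℕ) (v : H) :
    amp b (lp.single 2 j v) = lp.single 2 j (b v) := by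
  ext i
  rw [amp_apply]
  by_cases h : i = j
  · subst h; simp
  · simp [lp.single_apply, Pi.single_eq_of_ne h]

def ampL (ξ : Hs H) : (H →L[ℂ] H) →ₗ[ℂ] Hs H where
  toFun b := amp b ξ
  map_add' a b := by ext i; rfl
  map_smul' c a := by ext i; rfl

theorem bicomm (B : StarSubalgebra ℂ (H →L[ℂ] H)) (y : H →L[ℂ] H)
    (hy : ∀ z, (∀ b ∈ B, b * z = z * b) → z * y = y * z) (ξ : Hs H) :
    amp y ξ ∈ closure (ampL ξ '' (B : Set (H →L[ℂ] H))) := by
  let K : Submodule ℂ (Hs H) := (B.toSubalgebra.toSubmodule.map (ampL ξ)).topologicalClosure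
  haveI : CompleteSpace K := (Submodule.isClosed_topologicalClosure _).completeSpace_coe
  have hK : ∀ b ∈ B, ∀ v ∈ K, amp b v ∈ K := by
    intro b hb v hv
    refine map_mem_closure (amp b).continuous hv ?_
    rintro _ ⟨a, ha, rfl⟩
    exact ⟨b * a, B.mul_mem hb ha, by ext i; rfl⟩
  have hP : ∀ b ∈ B, ∀ v, K.starProjection (amp b v) = amp b (K.starProjection v) := by
    intro b hb v
    refine Submodule.eq_starProjection_of_mem_of_inner_eq_zero
      (hK b hb _ (K.starProjection_apply_mem v)) fun w hw => ?_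
    rw [← map_sub, amp_inner]
    exact K.starProjection_inner_eq_zero v _ (hK _ (star_mem hb) w hw)
  have hy2 : K.starProjection.comp (amp y) = (amp y).comp K.starProjection := by
    refine lp.ext_continuousLinearMap (ENNReal.ofNat_ne_top (n := nat_lit 2)) fun j => ?_
    ext v i
    let z : H →L[ℂ] H := (lp.evalCLM ℂ (fun _ : ℕ => H) 2 i).comp
      (K.starProjection.comp (lp.singleContinuousLinearMap ℂ (fun _ : ℕ => H) 2 j))
    have hz : ∀ u, z u = K.starProjection (lp.single 2 j u) i := fun u => rfl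
    have h1 := hy z fun b hb => by
      ext u
      rw [ContinuousLinearMap.mul_apply, ContinuousLinearMap.mul_apply, hz, hz, ← amp_single,
        hP b hb, amp_apply]
    have h2 := congrArg (fun T : H →L[ℂ] H => T v) h1
    simp only [ContinuousLinearMap.mul_apply, hz] at h2
    show K.starProjection (amp y (lp.single 2 j v)) i = amp y (K.starProjection (lp.single 2 j v)) i
    rw [amp_single, amp_apply, h2]
  have h1 : ξ ∈ K := subset_closure ⟨1, B.one_mem, by ext i; rfl⟩
  have h2 : amp y ξ = K.starProjection (amp y ξ) := by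
    have := congrArg (fun T : Hs H →L[ℂ] Hs H => T ξ) hy2
    simp only [ContinuousLinearMap.comp_apply, Submodule.starProjection_eq_self_iff.2 h1] at this
    exact this.symm
  have h3 : amp y ξ ∈ K := h2 ▸ K.starProjection_apply_mem _
  exact h3

/-- the bicommutant as a von Neumann algebra -/
def dbl (B : StarSubalgebra ℂ (H →L[ℂ] H)) : VonNeumannAlgebra H where
  toStarSubalgebra := StarSubalgebra.centralizer ℂ
    (StarSubalgebra.centralizer ℂ (B : Set (H →L[ℂ] H)) : Set (H →L[ℂ] H))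
  centralizer_centralizer' := by simp

theorem mem_dbl (B : StarSubalgebra ℂ (H →L[ℂ] H)) (y : H →L[ℂ] H) :
    y ∈ dbl B ↔ ∀ z, (∀ b ∈ B, b * z = z * b) → z * y = y * z := by
  show y ∈ StarSubalgebra.centralizer ℂ _ ↔ _
  rw [StarSubalgebra.mem_centralizer_iff]
  have hc : ∀ z, z ∈ (StarSubalgebra.centralizer ℂ (B : Set (H →L[ℂ] H)) : Set (H →L[ℂ] H)) ↔
      ∀ b ∈ B, b * z = z * b := by
    intro z
    rw [SetLike.mem_coe, StarSubalgebra.mem_centralizer_iff]
    exact ⟨fun h b hb => (h b hb).1, fun h b hb => ⟨h b hb, h _ (star_mem hb)⟩⟩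
  refine ⟨fun h z hz => (h z ((hc z).2 hz)).1, fun h z hz => ⟨h z ((hc z).1 hz), h _ ?_⟩⟩
  exact (hc _).1 (star_mem (s := StarSubalgebra.centralizer ℂ (B : Set (H →L[ℂ] H))) hz)

/-- density for a sum of vector functionals -/
theorem dens {A : Type} [Ring A] [StarRing A] [Algebra ℂ A] [StarModule ℂ A] (T : Tracial A H) (ξ : ℕ → H) (hξ : Summable fun i => ‖ξ i‖ ^ 2)
    (h : ∀ x : A, T.τ x = ∑' i, inner ℂ (ξ i) (T.op x (ξ i))) {n : ℕ}
    (X : Fin n → A) (B : StarSubalgebra ℂ A) (hB : ∀ j, X j ∈ B) (y : A)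
    (hy : y ∈ T.wstar X) (ε : ℝ) (hε : 0 < ε) :
    ∃ b ∈ B, √(T.τ (star (y - b) * (y - b))).re < ε := by
  let ξ' : Hs H := ⟨ξ, memℓp_gen (by simpa using hξ)⟩
  let B' := B.map T.π
  have h1 : T.op y ∈ dbl B' :=
    hy _ fun j => (mem_dbl _ _).2 fun z hz => (hz _ ⟨X j, hB j, rfl⟩).symm
  obtain ⟨_, ⟨_, ⟨b, hb, rfl⟩, rfl⟩, h2⟩ :=
    Metric.mem_closure_iff.1 (bicomm B' (T.op y) ((mem_dbl _ _).1 h1) ξ') ε hε
  refine ⟨b, hb, ?_⟩
  have h3 : T.τ (star (y - b) * (y - b)) =
      inner ℂ (amp (T.op (y - b)) ξ') (amp (T.op (y - b)) ξ') := by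
    rw [h, amp_inner, lp.inner_eq_tsum, Tracial.op, Tracial.op, map_mul, map_star]
    rfl
  have h4 : amp (T.op (y - b)) ξ' = amp (T.op y) ξ' - ampL ξ' (T.π b) := by
    rw [Tracial.op, map_sub]
    ext i; rfl
  rw [h3, h4, inner_self_eq_norm_sq_to_K]
  rw [dist_eq_norm] at h2
  have h5 : ∀ r : ℝ, 0 ≤ r → √((r : ℂ) ^ 2).re = r := fun r hr => by
    rw [← Complex.ofReal_pow, Complex.ofReal_re, Real.sqrt_sq hr]
  exact (h5 _ (norm_nonneg _)).trans_lt h2

end Vale.Agent.P087L14

end
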