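import Vale.Agent.P087L14.L2

/-! Freeness determines the joint law. -/

set_option autoImplicit false
set_option linter.all false

noncomputable section

namespace Vale.Agent.P087L14

section alg

variable {R κ : Type} [Ring R] [Algebra ℂ R]

def FreeF (φ : R →ₗ[ℂ] ℂ) (B : κ → Subalgebra ℂ R) : Prop :=
  ∀ (p : ℕ) (i : Fin (p + 1) → κ) (a : Fin (p + 1) → R), (∀ k, a k ∈ B (i k)) →
    (∀ k, φ (a k) = 0) → (∀ k : Fin p, i k.castSucc ≠ i k.succ) → φ (List.ofFn a).prod = 0

def lpr (L : List (κ × R)) : R := (L.map Prod.snd).prod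

theorem freeF_list {φ : R →ₗ[ℂ] ℂ} {B : κ → Subalgebra ℂ R} (h : FreeF φ B) (L : List (κ × R))
    (p : ℕ) (hp : L.length = p + 1) (hB : ∀ x ∈ L, x.2 ∈ B x.1) (h0 : ∀ x ∈ L, φ x.2 = 0)
    (hc : L.IsChain fun x y => x.1 ≠ y.1) : φ (lpr L) = 0 := by
  obtain ⟨f, rfl⟩ : ∃ f : Fin (p + 1) → κ × R, L = List.ofFn f :=
    ⟨fun k => L.get (k.cast hp.symm), by
      apply List.ext_get (by simp [hp])
      intro k h1 h2
      rw [List.get_ofFn]
      rfl⟩
  rw [lpr, List.map_ofFn]
  refine h p (fun k => (f k).1) _ (fun k => hB _ (List.mem_ofFn.2 ⟨k, rfl⟩))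
    (fun k => h0 _ (List.mem_ofFn.2 ⟨k, rfl⟩)) fun k => ?_
  have := List.isChain_iff_getElem.1 hc k.1 (by simp)
  simp only [List.getElem_ofFn] at this
  exact this

theorem free_det {φ ψ : R →ₗ[ℂ] ℂ} {B : κ → Subalgebra ℂ R} (hφ : FreeF φ B) (hψ : FreeF ψ B)
    (h1 : φ 1 = 1) (h1' : ψ 1 = 1) (he : ∀ i, ∀ a ∈ B i, φ a = ψ a) (m : ℕ) :
    ∀ L : List (κ × R), L.length = m → (∀ x ∈ L, x.2 ∈ B x.1) → φ (lpr L) = ψ (lpr L) := by
  induction m with
  | zero =>
    intro L hL _
    rw [List.length_eq_zero_iff.1 hL]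
    exact h1.trans h1'.symm
  | succ m ih =>
    have cen : ∀ L : List (κ × R), L.length = m + 1 → (∀ x ∈ L, x.2 ∈ B x.1) →
        (∀ x ∈ L, φ x.2 = 0) → φ (lpr L) = ψ (lpr L) := by
      intro L hL hB h0
      by_cases hc : L.IsChain fun x y => x.1 ≠ y.1
      · rw [freeF_list hφ L m hL hB h0 hc, freeF_list hψ L m hL hB
          (fun x hx => (he _ _ (hB x hx)).symm.trans (h0 x hx)) hc]
      · rw [List.isChain_iff_forall_rel_of_append_cons_cons] at hc
        push Not at hc
        obtain ⟨x, y, L1, L2, rfl, hxy⟩ := hc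
        have h2 : lpr (L1 ++ x :: y :: L2) = lpr (L1 ++ (x.1, x.2 * y.2) :: L2) := by
          simp [lpr, mul_assoc]
        rw [h2]
        refine ih _ (by simp at hL ⊢; omega) fun z hz => ?_
        rcases List.mem_append.1 hz with hz | hz
        · exact hB z (by simp [hz])
        · rcases List.mem_cons.1 hz with rfl | hz
          · exact (B _).mul_mem (hB x (by simp)) (hxy ▸ hB y (by simp))
          · exact hB z (by simp [hz])
    have key : ∀ L2 L1 : List (κ × R), (L1 ++ L2).length = m + 1 → (∀ x ∈ L1 ++ L2, x.2 ∈ B x.1) →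
        (∀ x ∈ L1, φ x.2 = 0) → φ (lpr (L1 ++ L2)) = ψ (lpr (L1 ++ L2)) := by
      intro L2
      induction L2 with
      | nil => intro L1 hL hB h0; exact cen _ hL hB (by simpa using h0)
      | cons x L2 ih2 =>
        intro L1 hL hB h0
        have h2 : lpr (L1 ++ x :: L2) =
            lpr ((L1 ++ [(x.1, x.2 - φ x.2 • 1)]) ++ L2) + φ x.2 • lpr (L1 ++ L2) := by
          simp [lpr, mul_sub, sub_mul]
        have h3 := ih (L1 ++ L2) (by simp at hL ⊢; omega) fun z hz => hB z (by
          rcases List.mem_append.1 hz with hz | hz <;> simp [hz])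
        have h4 := ih2 (L1 ++ [(x.1, x.2 - φ x.2 • 1)]) (by simp at hL ⊢; omega) (fun z hz => by
          rcases List.mem_append.1 hz with hz | hz
          · rcases List.mem_append.1 hz with hz | hz
            · exact hB z (by simp [hz])
            · rw [List.mem_singleton.1 hz]
              exact (B _).sub_mem (hB x (by simp)) ((B _).smul_mem (B _).one_mem _)
          · exact hB z (by simp [hz])) (fun z hz => by
          rcases List.mem_append.1 hz with hz | hz
          · exact h0 z hz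
          · rw [List.mem_singleton.1 hz]; simp [h1])
        rw [h2, map_add, map_add, map_smul, map_smul, h3, h4]
    intro L hL hB
    exact key L [] hL hB (by simp)

theorem eq_on_adjoin {ι : Type} {φ ψ : R →ₗ[ℂ] ℂ} (Z : ι → R)
    (h : ∀ w : List ι, φ (w.map Z).prod = ψ (w.map Z).prod) :
    ∀ a ∈ Algebra.adjoin ℂ (Set.range Z), φ a = ψ a := by
  intro a ha
  have ha' : a ∈ Submodule.span ℂ (Submonoid.closure (Set.range Z) : Set R) := by
    rw [← Algebra.adjoin_eq_span]; exact ha
  refine LinearMap.eqOn_span' (fun b hb => ?_) ha'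
  have : ∃ w : List ι, b = (w.map Z).prod := by
    induction hb using Submonoid.closure_induction with
    | mem x hx => obtain ⟨i, rfl⟩ := hx; exact ⟨[i], by simp⟩
    | one => exact ⟨[], rfl⟩
    | mul x y _ _ hx hy =>
      obtain ⟨v, rfl⟩ := hx
      obtain ⟨w, rfl⟩ := hy
      exact ⟨v ++ w, by simp⟩
  obtain ⟨w, rfl⟩ := this
  exact h w

theorem FreeF.comap {R' : Type} [Ring R'] [Algebra ℂ R'] {φ : R' →ₗ[ℂ] ℂ}
    {B' : κ → Subalgebra ℂ R'} (h : FreeF φ B') (f : R →ₐ[ℂ] R') (B : κ → Subalgebra ℂ R)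
    (hB : ∀ i, ∀ a ∈ B i, f a ∈ B' i) : FreeF (φ ∘ₗ f.toLinearMap) B := by
  intro p i a h1 h2 h3
  have := h p i (fun k => f (a k)) (fun k => hB _ _ (h1 k)) h2 h3
  show φ (f _) = 0
  rw [map_list_prod, List.map_ofFn]
  exact this

theorem map_mem_adjoin {R' : Type} [Ring R'] [Algebra ℂ R'] (f : R →ₐ[ℂ] R') {s : Set R}
    {s' : Set R'} (h : f '' s ⊆ s') : ∀ a ∈ Algebra.adjoin ℂ s, f a ∈ Algebra.adjoin ℂ s' := by
  intro a ha
  refine Algebra.adjoin_mono h ?_
  rw [← AlgHom.map_adjoin]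
  exact ⟨a, ha, rfl⟩

end alg

variable {A A' H H' : Type} [Ring A] [StarRing A] [Algebra ℂ A] [StarModule ℂ A]
  [Ring A'] [StarRing A'] [Algebra ℂ A'] [StarModule ℂ A'] [NormedAddCommGroup H] [InnerProductSpace ℂ H] [CompleteSpace H]
  [NormedAddCommGroup H'] [InnerProductSpace ℂ H'] [CompleteSpace H']
  (T : Tracial A H) (T' : Tracial A' H') {n : ℕ} {X S : Fin n → A} {X' S' : Fin n → A'}

theorem law_flow (h : ∀ w : List (Fin n), T.τ (w.map X).prod = T'.τ (w.map X').prod)
    (hS : T.FreeSemi X S) (hS' : T'.FreeSemi X' S') (t : ℝ) :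
    P087.law T.τ (Tracial.flow X S t) = P087.law T'.τ (Tracial.flow X' S' t) := by
  let B : Option (Fin n) → Subalgebra ℂ (A × A') := fun o =>
    o.elim (Algebra.adjoin ℂ (Set.range fun j => (X j, X' j)))
      fun j => Algebra.adjoin ℂ (Set.range fun _ : Unit => (S j, S' j))
  let φ := T.τ ∘ₗ (AlgHom.fst ℂ A A').toLinearMap
  let ψ := T'.τ ∘ₗ (AlgHom.snd ℂ A A').toLinearMap
  have f1 : FreeF T.τ fun o : Option (Fin n) =>
    o.elim (Algebra.adjoin ℂ (Set.range X)) fun j => Algebra.adjoin ℂ {S j} := hS.free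
  have f2 : FreeF T'.τ fun o : Option (Fin n) =>
    o.elim (Algebra.adjoin ℂ (Set.range X')) fun j => Algebra.adjoin ℂ {S' j} := hS'.free
  have hφ : FreeF φ B := FreeF.comap f1 (AlgHom.fst ℂ A A') B fun o => by
    cases o with
    | none => exact map_mem_adjoin _ (by rintro _ ⟨_, ⟨j, rfl⟩, rfl⟩; exact ⟨j, rfl⟩)
    | some j => exact map_mem_adjoin _ (by rintro _ ⟨_, ⟨j, rfl⟩, rfl⟩; rfl)
  have hψ : FreeF ψ B := FreeF.comap f2 (AlgHom.snd ℂ A A') B fun o => by
    cases o with
    | none => exact map_mem_adjoin _ (by rintro _ ⟨_, ⟨j, rfl⟩, rfl⟩; exact ⟨j, rfl⟩)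
    | some j => exact map_mem_adjoin _ (by rintro _ ⟨_, ⟨j, rfl⟩, rfl⟩; rfl)
  have ev : ∀ {ι : Type} (Z : ι → A × A') (w : List ι),
      φ (w.map Z).prod = T.τ (w.map fun j => (Z j).1).prod ∧
      ψ (w.map Z).prod = T'.τ (w.map fun j => (Z j).2).prod := fun Z w =>
    ⟨by show T.τ (AlgHom.fst ℂ A A' _) = _; rw [map_list_prod, List.map_map]; rfl,
      by show T'.τ (AlgHom.snd ℂ A A' _) = _; rw [map_list_prod, List.map_map]; rfl⟩
  have he : ∀ o, ∀ a ∈ B o, φ a = ψ a := by
    intro o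
    cases o with
    | none => exact eq_on_adjoin _ fun w => by rw [(ev _ w).1, (ev _ w).2]; exact h w
    | some j =>
      refine eq_on_adjoin _ fun w => ?_
      rw [(ev _ w).1, (ev _ w).2]
      simp only [List.map_const', List.prod_replicate]
      rw [hS.law, hS'.law]
  have hd := fun L => free_det hφ hψ T.one T'.one he _ L rfl
  let Y : Fin n → A × A' := fun j => (Tracial.flow X S t j, Tracial.flow X' S' t j)
  have key : ∀ (w : List (Fin n)) (L : List (Option (Fin n) × (A × A'))),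
      (∀ x ∈ L, x.2 ∈ B x.1) → φ (lpr L * (w.map Y).prod) = ψ (lpr L * (w.map Y).prod) := by
    intro w
    induction w with
    | nil => intro L hL; simpa using hd L hL
    | cons j w ih =>
      intro L hL
      have h2 : Y j = (X j, X' j) + ((√t : ℝ) : ℂ) • (S j, S' j) := rfl
      have h3 : lpr L * ((j :: w).map Y).prod =
          lpr (L ++ [(none, (X j, X' j))]) * (w.map Y).prod +
            ((√t : ℝ) : ℂ) • (lpr (L ++ [(some j, (S j, S' j))]) * (w.map Y).prod) := by
        simp only [lpr, List.map_cons, List.prod_cons, h2, List.map_append, List.prod_append,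
          List.map_nil, List.prod_nil, mul_one, add_mul, mul_add, smul_mul_assoc, mul_smul_comm,
          mul_assoc]
      rw [h3, map_add, map_add, map_smul, map_smul, ih, ih]
      · intro x hx
        rcases List.mem_append.1 hx with hx | hx
        · exact hL x hx
        · rw [List.mem_singleton.1 hx]; exact Algebra.subset_adjoin ⟨(), rfl⟩
      · intro x hx
        rcases List.mem_append.1 hx with hx | hx
        · exact hL x hx
        · rw [List.mem_singleton.1 hx]; exact Algebra.subset_adjoin ⟨j, rfl⟩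
  funext w
  have := key w [] (by simp)
  rw [show lpr ([] : List (Option (Fin n) × (A × A'))) = 1 from rfl, one_mul, (ev _ w).1,
    (ev _ w).2] at this
  exact this

end Vale.Agent.P087L14

end
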