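import Vale.Agent.P087L14.L2
import Mathlib.Analysis.SpecialFunctions.ImproperIntegrals

/-! Measurability of the free Fisher information along the flow, and the Cramer-Rao bound. -/

set_option autoImplicit false
set_option linter.all false

open MeasureTheory Filter Topology
open scoped ENNReal NNReal

noncomputable section

namespace Vale.Agent.P087L14

variable {A H : Type} [Ring A] [StarRing A] [Algebra ℂ A] [StarModule ℂ A]
  [NormedAddCommGroup H] [InnerProductSpace ℂ H] [CompleteSpace H]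
  (T : Tracial A H) {n : ℕ} {X S : Fin n → A}

theorem flow_sa (hX : ∀ j, IsSelfAdjoint (X j)) (hS : ∀ j, IsSelfAdjoint (S j)) (t : ℝ) (j : Fin n) :
    IsSelfAdjoint (Tracial.flow X S t j) := by
  show star _ = _
  rw [Tracial.flow, star_add, star_smul, (hX j).star_eq, (hS j).star_eq, Complex.star_def,
    Complex.conj_ofReal]

theorem law_cont (w : List (Fin n)) : ∀ a : A,
    Continuous fun t => T.τ (a * (w.map (Tracial.flow X S t)).prod) := by
  induction w with
  | nil => intro a; simpa using continuous_const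
  | cons j w ih =>
    intro a
    have h : (fun t => T.τ (a * ((j :: w).map (Tracial.flow X S t)).prod)) = fun t =>
        T.τ (a * X j * (w.map (Tracial.flow X S t)).prod) +
          ((√t : ℝ) : ℂ) * T.τ (a * S j * (w.map (Tracial.flow X S t)).prod) := by
      funext t
      rw [List.map_cons, List.prod_cons, ← mul_assoc, Tracial.flow, mul_add, add_mul, map_add,
        mul_smul_comm, smul_mul_assoc, map_smul, smul_eq_mul]
    rw [h]
    exact (ih _).add ((Complex.continuous_ofReal.comp Real.continuous_sqrt).mul (ih _))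

theorem conj_le_iff (μ : List (Fin n) → ℂ) (h0 : ∀ p, 0 ≤ P087.normSq μ p) (j : Fin n) (c : ℝ≥0) :
    P087.conjNormSq μ j ≤ c ↔ ∀ p, ‖P087.dq μ j p‖ ^ 2 ≤ c * P087.normSq μ p := by
  refine ⟨fun h p => ?_, fun h => iInf₂_le c h⟩
  have h1 : ∀ ε : ℝ, 0 < ε → ‖P087.dq μ j p‖ ^ 2 ≤ (c + ε) * P087.normSq μ p := by
    intro ε hε
    have h2 : P087.conjNormSq μ j < ((c + ⟨ε, hε.le⟩ : ℝ≥0) : ℝ≥0∞) :=
      h.trans_lt (ENNReal.coe_lt_coe.2 (lt_add_of_pos_right _ hε))
    simp only [P087.conjNormSq, iInf_lt_iff] at h2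
    obtain ⟨C, hC, h3⟩ := h2
    have h4 : (C : ℝ) ≤ c + ε := NNReal.coe_le_coe.2 (ENNReal.coe_lt_coe.1 h3).le
    exact (hC p).trans (mul_le_mul_of_nonneg_right h4 (h0 p))
  have h5 : Tendsto (fun ε : ℝ => (c + ε) * P087.normSq μ p) (𝓝[>] 0)
      (𝓝 ((c + 0) * P087.normSq μ p)) :=
    tendsto_nhdsWithin_of_tendsto_nhds (Continuous.tendsto (by fun_prop) _)
  rw [add_zero] at h5
  exact ge_of_tendsto h5 (eventually_nhdsWithin_of_forall h1)

theorem normSq_nonneg {Y : Fin n → A} (hY : ∀ j, IsSelfAdjoint (Y j)) (p : List (Fin n) →₀ ℂ) :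
    0 ≤ P087.normSq (P087.law T.τ Y) p := by
  rw [← ph_norm_sq T hY]; positivity

theorem fisher_meas (hX : ∀ j, IsSelfAdjoint (X j)) (hS : ∀ j, IsSelfAdjoint (S j)) :
    Measurable fun t => P087.fisher (P087.law T.τ (Tracial.flow X S t)) := by
  refine Finset.measurable_sum _ fun j _ => measurable_of_Iic fun a => ?_
  induction a with
  | top => simp
  | coe c =>
    have hl : ∀ w, Continuous fun t => P087.law T.τ (Tracial.flow X S t) w := fun w => by
      simpa [P087.law] using law_cont T (X := X) (S := S) w 1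
    have h : (fun t => P087.conjNormSq (P087.law T.τ (Tracial.flow X S t)) j) ⁻¹' Set.Iic c =
        ⋂ p, {t | ‖P087.dq (P087.law T.τ (Tracial.flow X S t)) j p‖ ^ 2 ≤
          c * P087.normSq (P087.law T.τ (Tracial.flow X S t)) p} := by
      ext t
      simp only [Set.mem_preimage, Set.mem_Iic, Set.mem_iInter, Set.mem_setOf_eq]
      exact conj_le_iff _ (normSq_nonneg T (flow_sa hX hS t)) j c
    rw [h]
    refine (isClosed_iInter fun p => isClosed_le ?_ ?_).measurableSet
    · refine (Continuous.norm ?_).pow 2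
      refine continuous_finset_sum _ fun w _ => continuous_const.mul ?_
      refine continuous_finset_sum _ fun l _ => ?_
      split_ifs
      · exact (hl _).mul (hl _)
      · exact continuous_const
    · refine continuous_const.mul (Complex.continuous_re.comp ?_)
      exact continuous_finset_sum _ fun v _ => continuous_finset_sum _ fun w _ =>
        continuous_const.mul (hl _)

theorem cramer {Y : Fin n → A} (hY : ∀ j, IsSelfAdjoint (Y j)) (j : Fin n) {b : ℝ} (hb : 0 < b)
    (h : (T.τ (Y j * Y j)).re ≤ b) :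
    ENNReal.ofReal (1 / b) ≤ P087.conjNormSq (P087.law T.τ Y) j := by
  refine le_iInf₂ fun C hC => ?_
  have h1 := hC (Finsupp.single [j] 1)
  have h2 : P087.dq (P087.law T.τ Y) j (Finsupp.single [j] 1) = 1 := by
    simp [P087.dq, P087.dqWord, P087.law, T.one]
  have h3 : P087.normSq (P087.law T.τ Y) (Finsupp.single [j] 1) = (T.τ (Y j * Y j)).re := by
    simp [P087.normSq, P087.law]
  rw [h2, h3, norm_one, one_pow] at h1
  rw [ENNReal.ofReal_le_coe, div_le_iff₀ hb]
  exact h1.trans (mul_le_mul_of_nonneg_left h C.2)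

theorem mixed (hf : T.Free fun o : Option (Fin n) =>
    o.elim (Algebra.adjoin ℂ (Set.range X)) fun j => Algebra.adjoin ℂ {S j}) (j : Fin n)
    (h1 : T.τ (S j) = 0) : T.τ (X j * S j) = 0 := by
  have h := hf 1 ![none, some j] ![X j - T.τ (X j) • 1, S j] (by
    intro k
    fin_cases k
    · exact Subalgebra.sub_mem _ (Algebra.subset_adjoin ⟨j, rfl⟩)
        (Subalgebra.smul_mem _ (Subalgebra.one_mem _) _)
    · exact Algebra.subset_adjoin rfl) (by
    intro k
    fin_cases k
    · simp [T.one]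
    · exact h1) (by
    intro k
    fin_cases k
    simp)
  simpa [sub_mul, h1] using h

theorem posPart_fin (hX : ∀ j, IsSelfAdjoint (X j)) (hS : ∀ j, IsSelfAdjoint (S j))
    (h1 : ∀ j, T.τ (X j * S j) = 0) (h2 : ∀ j, T.τ (S j * S j) = 1) :
    ∫⁻ t in Set.Ioi (0 : ℝ), (ENNReal.ofReal (n / (1 + t)) -
      P087.fisher (P087.law T.τ (Tracial.flow X S t))) < ⊤ := by
  obtain ⟨a, ha1, ha⟩ : ∃ a : ℝ, 1 ≤ a ∧ ∀ j, (T.τ (X j * X j)).re ≤ a := by
    obtain ⟨a, ha⟩ := (Set.finite_range fun j => (T.τ (X j * X j)).re).bddAbove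
    exact ⟨max 1 a, le_max_left _ _, fun j => (ha ⟨j, rfl⟩).trans (le_max_right _ _)⟩
  have hint : IntegrableOn (fun t : ℝ => n * a * (t + 1) ^ (-2 : ℝ)) (Set.Ioi 0) :=
    (integrableOn_add_rpow_Ioi_of_lt (by norm_num) (by norm_num)).const_mul _
  refine lt_of_le_of_lt (setLIntegral_mono' measurableSet_Ioi fun t ht => ?_) hint.lintegral_lt_top
  have ht0 : 0 < t := ht
  have h3 : ∀ j, (T.τ (Tracial.flow X S t j * Tracial.flow X S t j)).re ≤ a + t := by
    intro j
    have h4 : ((√t : ℝ) : ℂ) * ((√t : ℝ) : ℂ) = t := by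
      rw [← Complex.ofReal_mul, Real.mul_self_sqrt ht0.le]
    have h5 : T.τ (Tracial.flow X S t j * Tracial.flow X S t j) = T.τ (X j * X j) + t := by
      simp only [Tracial.flow, mul_add, add_mul, map_add, mul_smul_comm, smul_mul_assoc, map_smul,
        smul_eq_mul, h1, h2, T.tracial (S j) (X j)]
      linear_combination h4
    rw [h5, Complex.add_re, Complex.ofReal_re]
    linarith [ha j]
  have h6 : ENNReal.ofReal (n / (a + t)) ≤ P087.fisher (P087.law T.τ (Tracial.flow X S t)) := by
    refine le_trans (le_of_eq ?_) (Finset.sum_le_sum fun j _ =>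
      cramer T (flow_sa hX hS t) j (by linarith) (h3 j))
    rw [Finset.sum_const, Finset.card_univ, Fintype.card_fin, nsmul_eq_mul,
      ← ENNReal.ofReal_natCast, ← ENNReal.ofReal_mul (Nat.cast_nonneg _), mul_one_div]
  refine (tsub_le_tsub_left h6 _).trans ?_
  rw [← ENNReal.ofReal_sub _ (by positivity)]
  refine ENNReal.ofReal_le_ofReal ?_
  rw [Real.rpow_neg (by positivity), Real.rpow_two]
  have h7 : (n : ℝ) / (1 + t) - n / (a + t) = n * (a - 1) / ((1 + t) * (a + t)) := by
    field_simp
    ring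
  rw [h7, ← div_eq_mul_inv]
  apply div_le_div₀ (by positivity) (by gcongr; linarith) (by positivity)
  nlinarith

end Vale.Agent.P087L14

end
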