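import Mathlib.Analysis.SpecialFunctions.Integrals.Basic
import Mathlib.Combinatorics.Enumerative.Catalan.Basic

/-! The moments of the semicircle law are the Catalan numbers. -/

set_option autoImplicit false
set_option linter.all false

open Filter Topology intervalIntegral

noncomputable section

namespace Vale.Agent.P087L14

def scm (k : ℕ) : ℝ := ∫ x in (-2 : ℝ)..2, x ^ k * √(4 - x ^ 2)

theorem ftc32 (p p' : ℝ → ℝ) (hp : ∀ x, HasDerivAt p (p' x) x) (hc : Continuous p') :
    ∫ x in (-2 : ℝ)..2, (p' x * (4 - x ^ 2) - 3 * x * p x) * √(4 - x ^ 2) = 0 := by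
  have hpc : Continuous p := continuous_iff_continuousAt.2 fun x => (hp x).continuousAt
  have h := integral_eq_sub_of_hasDerivAt_of_le (a := -2) (b := 2)
    (f := fun x => p x * ((4 - x ^ 2) * √(4 - x ^ 2)))
    (f' := fun x => (p' x * (4 - x ^ 2) - 3 * x * p x) * √(4 - x ^ 2)) (by norm_num)
    (by fun_prop) (fun x hx => ?_) (Continuous.intervalIntegrable (by fun_prop) _ _)
  · rw [h]; norm_num
  · have h4 : 0 < 4 - x ^ 2 := by nlinarith [hx.1, hx.2]
    have h1 : HasDerivAt (fun x : ℝ => 4 - x ^ 2) (-(2 * x)) x := by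
      simpa using ((hasDerivAt_pow 2 x).const_sub 4)
    have h2 := h1.sqrt h4.ne'
    have h3 := (hp x).mul (h1.mul h2)
    refine HasDerivAt.congr_deriv h3 ?_
    have h5 : √(4 - x ^ 2) ≠ 0 := (Real.sqrt_pos.2 h4).ne'
    have h6 : √(4 - x ^ 2) ^ 2 = 4 - x ^ 2 := Real.sq_sqrt h4.le
    simp only [Pi.mul_apply]
    generalize √(4 - x ^ 2) = r at h5 h6
    rw [← h6]
    field_simp
    ring

theorem scm_int (k : ℕ) :
    IntervalIntegrable (fun x : ℝ => x ^ k * √(4 - x ^ 2)) MeasureTheory.volume (-2) 2 :=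
  Continuous.intervalIntegrable (by fun_prop) _ _

theorem scm_rec (k : ℕ) : 4 * ((k : ℝ) + 1) * scm k = ((k : ℝ) + 4) * scm (k + 2) := by
  have h := ftc32 (fun x => x ^ (k + 1)) (fun x => ((k : ℝ) + 1) * x ^ k)
    (fun x => by simpa using hasDerivAt_pow (k + 1) x) (by fun_prop)
  rw [← sub_eq_zero, ← h, scm, scm, ← integral_const_mul, ← integral_const_mul,
    ← integral_sub ((scm_int _).const_mul _) ((scm_int _).const_mul _)]
  congr 1
  funext x
  ring

theorem scm_one : scm 1 = 0 := by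
  have h := ftc32 (fun _ => 1) (fun _ => 0) (fun x => hasDerivAt_const x 1) (by fun_prop)
  have h2 : (-3 : ℝ) * scm 1 = 0 := by
    rw [← h, scm, ← integral_const_mul]
    congr 1
    funext x
    ring
  linarith

theorem scm_zero : scm 0 = 2 * Real.pi := by
  have h := integral_comp_mul_left (a := -1) (b := 1) (c := 2)
    (fun x : ℝ => x ^ 0 * √(4 - x ^ 2)) two_ne_zero
  have h2 : ∀ x : ℝ, (2 * x) ^ 0 * √(4 - (2 * x) ^ 2) = 2 * √(1 - x ^ 2) := by
    intro x
    rw [show 4 - (2 * x) ^ 2 = 2 ^ 2 * (1 - x ^ 2) by ring, Real.sqrt_mul (by norm_num),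
      Real.sqrt_sq (by norm_num)]
    ring
  simp only [h2, integral_const_mul, integral_sqrt_one_sub_sq] at h
  norm_num at h
  simp only [scm, pow_zero, one_mul]
  linarith

theorem scm_odd (k : ℕ) : scm (2 * k + 1) = 0 := by
  induction k with
  | zero => exact scm_one
  | succ k ih =>
    have h := scm_rec (2 * k + 1)
    rw [ih, mul_zero] at h
    have : ((2 * k + 1 : ℕ) : ℝ) + 4 ≠ 0 := by positivity
    exact (mul_eq_zero.1 h.symm).resolve_left this

theorem catalan_rec (k : ℕ) :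
    ((k : ℝ) + 2) * catalan (k + 1) = 2 * (2 * (k : ℝ) + 1) * catalan k := by
  have h1 := congrArg (Nat.cast : ℕ → ℝ) (succ_mul_catalan_eq_centralBinom k)
  have h2 := congrArg (Nat.cast : ℕ → ℝ) (succ_mul_catalan_eq_centralBinom (k + 1))
  have h3 := congrArg (Nat.cast : ℕ → ℝ) (Nat.succ_mul_centralBinom_succ k)
  push_cast at h1 h2 h3
  have h4 : ((k : ℝ) + 1) ≠ 0 := by positivity
  apply mul_left_cancel₀ h4
  linear_combination ((k : ℝ) + 1) * h2 + h3 - 2 * (2 * (k : ℝ) + 1) * h1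

theorem scm_even (k : ℕ) : scm (2 * k) = 2 * Real.pi * catalan k := by
  induction k with
  | zero => simp [scm_zero]
  | succ k ih =>
    have h := scm_rec (2 * k)
    have h2 := catalan_rec k
    rw [ih] at h
    push_cast at h
    have h4 : (2 * (k : ℝ) + 4) ≠ 0 := by positivity
    apply mul_left_cancel₀ h4
    rw [show 2 * (k + 1) = 2 * k + 2 by ring]
    linear_combination -h - 4 * Real.pi * h2

theorem semi_eq (k : ℕ) :
    ∫ x in (-2 : ℝ)..2, x ^ k * ((2 * Real.pi)⁻¹ * √(4 - x ^ 2)) = (2 * Real.pi)⁻¹ * scm k := by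
  rw [scm, ← integral_const_mul]
  congr 1
  funext x
  ring

theorem semi_even (k : ℕ) :
    ∫ x in (-2 : ℝ)..2, x ^ (2 * k) * ((2 * Real.pi)⁻¹ * √(4 - x ^ 2)) = catalan k := by
  rw [semi_eq, scm_even]
  have := Real.pi_pos
  field_simp

theorem semi_odd (k : ℕ) :
    ∫ x in (-2 : ℝ)..2, x ^ (2 * k + 1) * ((2 * Real.pi)⁻¹ * √(4 - x ^ 2)) = 0 := by
  rw [semi_eq, scm_odd, mul_zero]

end Vale.Agent.P087L14

end
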