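import Vale.Agent.P087L14.Defs
import Vale.Agent.P087.Bdl.B1

/-! Lebesgue measure on tuples of self-adjoint matrices. -/

set_option autoImplicit false
set_option linter.all false

open MeasureTheory Filter
open scoped ENNReal

noncomputable section

namespace Vale.Agent.P087L14

open Vale.Agent.P087 (herm herm_add herm_smul herm_conjTranspose)

theorem sqrt2_sq : ((Real.sqrt 2 : ℝ) : ℂ) ^ 2 = 2 := by
  rw [← Complex.ofReal_pow, Real.sq_sqrt (by norm_num)]; norm_num

theorem sqrt2_ne : ((Real.sqrt 2 : ℝ) : ℂ) ≠ 0 := fun h => by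
  have := sqrt2_sq
  rw [h] at this
  norm_num at this

theorem herm_trace (k : ℕ) (x y : Fin k → Fin k → ℝ) :
    (herm k x * herm k y).trace = ((∑ a, ∑ b, x a b * y a b : ℝ) : ℂ) := by
  have key : ∀ a b, herm k x a b * herm k y b a + herm k x b a * herm k y a b =
      (x a b * y a b : ℂ) + x b a * y b a := by
    intro a b
    have h2 := sqrt2_sq
    have h3 := sqrt2_ne
    rcases lt_trichotomy a b with h | h | h
    · simp only [herm, h.ne, h.ne', h, h.not_gt, if_true, if_false]
      field_simp
      rw [h2]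
      linear_combination (-2 * (x b a : ℂ) * y b a) * Complex.I_sq
    · subst h
      simp [herm]
    · simp only [herm, h.ne, h.ne', h, h.not_gt, if_true, if_false]
      field_simp
      rw [h2]
      linear_combination (-2 * (x a b : ℂ) * y a b) * Complex.I_sq
  have h1 : (herm k x * herm k y).trace = ∑ a, ∑ b, herm k x a b * herm k y b a := by
    simp [Matrix.trace, Matrix.mul_apply]
  have h2 : ∑ a, ∑ b, herm k x a b * herm k y b a = ∑ a, ∑ b, herm k x b a * herm k y a b :=
    Finset.sum_comm
  have h3 : ∑ a, ∑ b, (x a b * y a b : ℂ) = ∑ a, ∑ b, (x b a * y b a : ℂ) := Finset.sum_comm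
  have h4 : ∑ a, ∑ b, herm k x a b * herm k y b a + ∑ a, ∑ b, herm k x b a * herm k y a b =
      ∑ a, ∑ b, (x a b * y a b : ℂ) + ∑ a, ∑ b, (x b a * y b a : ℂ) := by
    simp only [← Finset.sum_add_distrib, key]
  push_cast
  rw [h1]
  rw [← h2, ← h3] at h4
  linear_combination h4 / 2

theorem herm_surj (k : ℕ) (A : Matrix (Fin k) (Fin k) ℂ) (hA : A.IsHermitian) :
    ∃ x, herm k x = A := by
  refine ⟨fun a b => if a = b then (A a a).re else if a < b then Real.sqrt 2 * (A a b).re
    else Real.sqrt 2 * (A b a).im, ?_⟩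
  ext a b
  have h3 := sqrt2_ne
  rcases lt_trichotomy a b with h | h | h
  · simp only [herm, h.ne, h.ne', h, h.not_gt, if_true, if_false]
    push_cast
    field_simp
    exact Complex.re_add_im _
  · subst h
    simp only [herm, if_true]
    exact Complex.conj_eq_iff_re.1 (hA.apply a a)
  · simp only [herm, h.ne, h.ne', h, h.not_gt, if_true, if_false]
    push_cast
    field_simp
    rw [← hA.apply a b]
    apply Complex.ext <;> simp

variable (n k : ℕ)

def sig : Fin (n * k ^ 2) ≃ Fin n × Fin k × Fin k :=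
  (Fintype.equivFinOfCardEq (by simp [sq])).symm

def crd : (Fin n → Fin k → Fin k → ℝ) ≃ₗ[ℝ] EuclideanSpace ℝ (Fin (n * k ^ 2)) where
  toFun x := WithLp.toLp 2 fun i => x (sig n k i).1 (sig n k i).2.1 (sig n k i).2.2
  invFun y := fun j a b => y ((sig n k).symm (j, a, b))
  map_add' x y := rfl
  map_smul' c x := rfl
  left_inv x := by funext j a b; simp
  right_inv y := by ext i; simp

theorem crd_mp : MeasurePreserving (crd n k) := by
  have h1 : MeasurePreserving (fun (x : Fin n → Fin k → Fin k → ℝ) (i : Fin (n * k ^ 2)) =>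
      x (sig n k i).1 (sig n k i).2.1 (sig n k i).2.2) := by
    refine ⟨by fun_prop, ?_⟩
    refine (Measure.pi_eq fun s hs => ?_).symm
    rw [Measure.map_apply (by fun_prop) (MeasurableSet.univ_pi hs)]
    have : (fun (x : Fin n → Fin k → Fin k → ℝ) (i : Fin (n * k ^ 2)) =>
        x (sig n k i).1 (sig n k i).2.1 (sig n k i).2.2) ⁻¹' Set.univ.pi s =
        Set.univ.pi fun j => Set.univ.pi fun a => Set.univ.pi fun b =>
          s ((sig n k).symm (j, a, b)) := by
      ext x
      simp only [Set.mem_preimage, Set.mem_univ_pi]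
      refine ⟨fun h j a b => by simpa using h ((sig n k).symm (j, a, b)), fun h i => ?_⟩
      simpa using h (sig n k i).1 (sig n k i).2.1 (sig n k i).2.2
    rw [this]
    simp only [volume_pi_pi]
    rw [← (sig n k).symm.prod_comp fun i => volume (s i)]
    simp only [Fintype.prod_prod_type]
  exact (PiLp.volume_preserving_toLp _).comp h1

def e0 : EuclideanSpace ℝ (Fin (n * k ^ 2)) →ₗ[ℝ] Tup n k where
  toFun y := fun j => herm k ((crd n k).symm y j)
  map_add' x y := by
    funext j
    rw [map_add, Pi.add_apply, herm_add]; rfl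
  map_smul' c x := by
    funext j
    rw [map_smul, Pi.smul_apply, herm_smul]; rfl

theorem e0_chart : IsChart (e0 n k) := by
  refine ⟨fun A => ⟨?_, fun h => ?_⟩, fun x y => ?_⟩
  · rintro ⟨y, rfl⟩ j
    exact herm_conjTranspose k _
  · choose x hx using fun j => herm_surj k (A j) (h j)
    refine ⟨crd n k x, funext fun j => ?_⟩
    show herm k ((crd n k).symm (crd n k x) j) = A j
    rw [LinearEquiv.symm_apply_apply, hx]
  · show ∑ j, (herm k ((crd n k).symm x j) * herm k ((crd n k).symm y j)).trace = _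
    simp only [herm_trace]
    rw [← Complex.ofReal_sum, PiLp.inner_apply,
      ← (sig n k).symm.sum_comp fun i => inner ℝ (x.ofLp i) (y.ofLp i)]
    simp only [Fintype.sum_prod_type]
    congr 1
    refine Finset.sum_congr rfl fun j _ => Finset.sum_congr rfl fun a _ =>
      Finset.sum_congr rfl fun b _ => ?_
    show x _ * y _ = _
    simp [mul_comm]

variable {n k}

theorem chart_indep {e e' : EuclideanSpace ℝ (Fin (n * k ^ 2)) →ₗ[ℝ] Tup n k} (he : IsChart e)
    (he' : IsChart e') (Γ : Set (Tup n k)) : volume (e ⁻¹' Γ) = volume (e' ⁻¹' Γ) := by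
  have hinj : LinearMap.ker e' = ⊥ := by
    rw [LinearMap.ker_eq_bot']
    intro x hx
    have := he'.2 x x
    simp only [hx, Pi.zero_apply, mul_zero, Matrix.trace_zero, Finset.sum_const_zero] at this
    exact inner_self_eq_zero.1 (Complex.ofReal_eq_zero.1 this.symm)
  obtain ⟨g, hg⟩ := e'.exists_leftInverse_of_injective hinj
  have h1 : ∀ x, e' (g (e x)) = e x := by
    intro x
    obtain ⟨y, hy⟩ := (he'.1 (e x)).2 ((he.1 (e x)).1 ⟨x, rfl⟩)
    rw [← hy, show g (e' y) = y from LinearMap.congr_fun hg y]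
  have h2 : ∀ x y, inner ℝ ((g ∘ₗ e) x) ((g ∘ₗ e) y) = inner ℝ x y := by
    intro x y
    apply Complex.ofReal_injective
    rw [← he'.2, ← he.2]
    simp only [LinearMap.comp_apply, h1]
  let Φ := ((g ∘ₗ e).isometryOfInner h2).toLinearIsometryEquiv rfl
  have h3 : e ⁻¹' Γ = Φ ⁻¹' (e' ⁻¹' Γ) := by
    ext x
    show e x ∈ Γ ↔ e' (g (e x)) ∈ Γ
    rw [h1]
  rw [h3]
  exact Φ.measurePreserving.measure_preimage_emb Φ.toHomeomorph.measurableEmbedding _

theorem chart_isChart : IsChart (chart n k) :=
  Classical.epsilon_spec ⟨e0 n k, e0_chart n k⟩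

theorem vol_eq (Γ : Set (Tup n k)) :
    vol Γ = volume {x : Fin n → Fin k → Fin k → ℝ | (fun j => herm k (x j)) ∈ Γ} := by
  rw [vol, chart_indep chart_isChart (e0_chart n k),
    ← (crd_mp n k).measure_preimage_emb
      (crd n k).toContinuousLinearEquiv.toHomeomorph.measurableEmbedding]
  congr 1
  ext x
  show (fun j => herm k ((crd n k).symm (crd n k x) j)) ∈ Γ ↔ _
  rw [LinearEquiv.symm_apply_apply]
  rfl

variable {A H : Type} [Ring A] [StarRing A] [Algebra ℂ A] [StarModule ℂ A]
  [NormedAddCommGroup H] [InnerProductSpace ℂ H] [CompleteSpace H]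

theorem chi_eq (T : Tracial A H) (X : Fin n → A) :
    T.chi X = P087.chi (P087.law T.τ X) := by
  unfold Tracial.chi P087.chi Tracial.chiR P087.chiR
  have h : ∀ R m k ε, vol (T.Gam X R m k ε) = volume (P087.microstates (P087.law T.τ X) R m k ε) := by
    intro R m k ε
    rw [vol_eq]
    congr 1
    ext x
    refine and_congr (forall_congr' fun j => (and_iff_right (herm_conjTranspose k _)).trans ?_)
      Iff.rfl
    rw [opNorm, Matrix.l2_opNorm_toEuclideanCLM]
  simp only [h, Fintype.card_fin]

end Vale.Agent.P087L14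

end
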