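import Vale.Agent.P087L14.Normal
import Vale.Agent.P087L14.Semi
import Vale.Agent.P087L14.Vol
import Vale.Agent.P087L14.Meas
import Vale.Agent.P087L14.Indep
import Vale.Agent.P087.H894.Main

/-! The gap between the two entropies, with the definitions of the problem text. -/

set_option autoImplicit false
set_option linter.all false

open MeasureTheory Filter
open scoped ENNReal NNReal

noncomputable section

namespace Vale.Agent.P087L14

variable {A H : Type} [Ring A] [StarRing A] [Algebra ℂ A] [StarModule ℂ A]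
  [NormedAddCommGroup H] [InnerProductSpace ℂ H] [CompleteSpace H]
  (T : Tracial A H) {n : ℕ} {X S : Fin n → A}

theorem fisher_eq' (hX : ∀ j, IsSelfAdjoint (X j))
    (hu : ∀ ξ η, T.IsConj X ξ → T.IsConj X η → ξ = η) :
    T.fisher X = P087.fisher (P087.law T.τ X) := by
  by_cases h : ∃ ξ, T.IsConj X ξ
  · obtain ⟨ξ, hξ⟩ := h
    have key : ∀ j η, Cj T X j η → η = ξ j := by
      intro j η hη
      have h1 : T.IsConj X (Function.update ξ j η) := (isConj_iff T _).2 fun i => by
        rcases eq_or_ne i j with rfl | hi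
        · rwa [Function.update_self]
        · rw [Function.update_of_ne hi]; exact hξ i
      simpa using congrFun (hu _ _ h1 hξ) j
    exact fisher_eq T hX fun j η η' h1 h2 => (key j η h1).trans (key j η' h2).symm
  · rw [Tracial.fisher, dif_neg h]
    by_contra hne
    refine h ?_
    have h1 : ∀ j, ∃ η, Cj T X j η := by
      intro j
      have h2 : P087.conjNormSq (P087.law T.τ X) j < ⊤ :=
        (Finset.single_le_sum (fun _ _ => zero_le) (Finset.mem_univ j)).trans_lt
          (lt_top_iff_ne_top.2 (Ne.symm hne))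
      simp only [P087.conjNormSq, iInf_lt_iff] at h2
      obtain ⟨C, hC, -⟩ := h2
      exact (cj_exists T hX C.2 hC).imp fun _ h => h.1
    choose η hη using h1
    exact ⟨η, hη⟩

theorem chiStar_eq (hX : ∀ j, IsSelfAdjoint (X j)) (hS : ∀ j, IsSelfAdjoint (S j))
    (hu : ∀ t ξ η, T.IsConj (Tracial.flow X S t) ξ → T.IsConj (Tracial.flow X S t) η → ξ = η) :
    T.chiStar X S = P087.chiStar fun t => P087.law T.τ (Tracial.flow X S t) := by
  have h := fun t => fisher_eq' T (flow_sa hX hS t) (hu t)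
  simp only [Tracial.chiStar, Tracial.posPart, Tracial.negPart, P087.chiStar, h, Fintype.card_fin]

theorem indep (hX : ∀ j, IsSelfAdjoint (X j)) (hS : T.FreeSemi X S) (hw : T.WellDef X S) :
    T.Indep X S := by
  intro A' H' _ _ _ _ _ _ _ T' X' S' hX' h hS' hw'
  rw [chiStar_eq T hX hS.selfAdjoint hw.unique, chiStar_eq T' hX' hS'.selfAdjoint hw'.unique]
  congr 1
  funext t
  exact law_flow T' T h hS' hS t

theorem bridge (hX : ∀ j, IsSelfAdjoint (X j)) : T.Bridge X := by
  refine ⟨fun y a ha => pair_coe T y ha, ⟨?_, ?_⟩⟩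
  · rintro ⟨ξ, hξ⟩
    refine ⟨∑ j, ‖ξ j‖ ^ 2, fun j P => ?_⟩
    obtain ⟨p, rfl⟩ := pol_surj P
    have h1 := cj_bound T hX (hξ j) p
    rw [← tt_pol] at h1
    rw [← normSq_eq T hX]
    exact h1.trans (mul_le_mul_of_nonneg_right (Finset.single_le_sum (f := fun j => ‖ξ j‖ ^ 2)
      (fun _ _ => by positivity) (Finset.mem_univ j)) (normSq_nonneg T hX p))
  · rintro ⟨C, hC⟩
    have h1 : ∀ j, ∃ η, Cj T X j η := fun j => (cj_exists T hX (le_max_right C 0) fun p => by
      have h2 := hC j (pol p)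
      rw [← normSq_eq T hX] at h2
      rw [← tt_pol]
      exact h2.trans (mul_le_mul_of_nonneg_right (le_max_left _ _) (normSq_nonneg T hX p))).imp
        fun _ h => h.1
    choose η hη using h1
    exact ⟨η, hη⟩

theorem chiStar_lt_top (h : T.posPart X S < ⊤) : T.chiStar X S < ⊤ := by
  unfold Tracial.chiStar
  obtain ⟨p, hp⟩ : ∃ p : ℝ, (T.posPart X S : EReal) = p :=
    ⟨(T.posPart X S).toReal, (EReal.coe_ennreal_toReal h.ne).symm⟩
  have h1 : (T.posPart X S : EReal) - (T.negPart X S : EReal) ≤ p := by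
    rw [hp, sub_eq_add_neg]
    exact add_le_of_nonpos_right (EReal.neg_le_zero.2 (EReal.coe_ennreal_nonneg _))
  have h2 := mul_le_mul_of_nonneg_left h1 (show (0 : EReal) ≤ ((1 / 2 : ℝ) : EReal) from
    EReal.coe_nonneg.2 (by norm_num))
  refine (add_le_add_left h2 _).trans_lt ?_
  rw [← EReal.coe_mul, ← EReal.coe_add]
  exact EReal.coe_lt_top _

theorem gap (n : ℕ) (hn : 10 ^ 50 ≤ n) : Gap n (1 / 10 ^ 25 * n) := by
  obtain ⟨H, i1, i2, i3, ⟨M, τ, s, X, S, a, b, c, r, V, hτ, ⟨ξ, hξ, h⟩, -, hX, hS, -, -, hE⟩⟩ :=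
    P087.H894.main n hn
  let T : Tracial M.toStarSubalgebra H := ⟨M.toStarSubalgebra.subtype, Subtype.val_injective,
    ⟨M, Subtype.range_val⟩, τ, vec_pos M τ ξ h, hτ.map_one, hτ.tracial, hτ.faithful,
    fun D s h1 h2 h3 h4 h5 => vec_normal M τ ξ hξ h D s h1 h2 h3
      ⟨fun x hx => h4 x hx, fun u hu => h5 u fun x hx => hu hx⟩⟩
  have hF : T.FreeSemi X S := ⟨hS.selfAdjoint, fun j k => by
    rcases Nat.even_or_odd' k with ⟨m, rfl | rfl⟩
    · rw [semi_even]; exact (hS.even j m).trans (by simp)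
    · rw [semi_odd]; exact (hS.odd j m).trans (by simp), hS.free⟩
  have hu : ∀ t ξ η, T.IsConj (Tracial.flow X S t) ξ → T.IsConj (Tracial.flow X S t) η → ξ = η :=
    fun t η η' h1 h2 => funext fun j =>
      cj_unique T (flow_sa hX hS.selfAdjoint t) ξ hξ h j _ _ (h1 j) (h2 j)
  have hf := fun t => fisher_eq' T (flow_sa hX hS.selfAdjoint t) (hu t)
  have hW : T.WellDef X S := ⟨hu, by simp only [hf]; exact fisher_meas T hX hS.selfAdjoint, by
    simp only [Tracial.posPart, hf]
    refine posPart_fin T hX hS.selfAdjoint (fun j => mixed T hF.free j ?_) fun j => ?_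
    · simpa using hS.odd j 0
    · simpa [pow_two] using hS.even j 1⟩
  have h1 : T.chi X = P087.FD.semiEnt c := by
    rw [chi_eq, ← hE.chi_eq, P087.FD.chi_eq]; rfl
  have h2 : ((P087.FD.semiEnt c + 1 / 10 ^ 25 * n : ℝ) : EReal) ≤ T.chiStar X S := by
    rw [chiStar_eq T hX hS.selfAdjoint hu]; exact hE.gap
  have h3 : (0 : ℝ) < 1 / 10 ^ 25 * n := by
    have : 0 < n := lt_of_lt_of_le (by positivity) hn
    positivity
  refine ⟨_, H, _, _, _, inferInstance, i1, i2, i3, T, X, S, hX, hF, hW, ?_, ?_, ?_, chiStar_lt_top T hW.fin⟩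
  · rw [h1]; exact EReal.bot_lt_coe _
  · rw [h1]; exact lt_of_lt_of_le (EReal.coe_lt_coe_iff.2 (by linarith)) h2
  · rw [h1, ← EReal.coe_add]; exact h2

theorem not_q1 : ¬ Q1 := fun h => by
  obtain ⟨A, H, _, _, _, _, i1, i2, i3, T, X, S, hX, hF, hW, h1, h2, -, -⟩ := gap (10 ^ 50) le_rfl
  exact h2.ne (h A H T _ X S (Nat.one_le_pow _ _ (by norm_num)) hX hF hW h1)

end Vale.Agent.P087L14

end
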