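import Vale.Agent.P087L14.Poly
import Vale.Agent.P087L14.Dens
import Mathlib.Analysis.InnerProductSpace.Dual
import Mathlib.Analysis.Normed.Module.HahnBanach

/-! Conjugate variables and the Riesz bound. -/

set_option autoImplicit false
set_option linter.all false

open UniformSpace
open scoped ENNReal NNReal

noncomputable section

namespace Vale.Agent.P087L14

theorem riesz {E K : Type} [AddCommGroup E] [Module ℂ E] [NormedAddCommGroup K]
    [InnerProductSpace ℂ K] [CompleteSpace K] (φ : E →ₗ[ℂ] K) (g : E →ₗ[ℂ] ℂ) (C : ℝ) (hC : 0 ≤ C)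
    (h : ∀ e, ‖g e‖ ≤ C * ‖φ e‖) : ∃ ξ : K, ‖ξ‖ ≤ C ∧ ∀ e, inner ℂ ξ (φ e) = g e := by
  have hk : LinearMap.ker φ ≤ LinearMap.ker g := fun e he => by
    have := h e
    rw [LinearMap.mem_ker.1 he, norm_zero, mul_zero] at this
    exact norm_le_zero_iff.1 this
  let g1 : LinearMap.range φ →ₗ[ℂ] ℂ :=
    (LinearMap.ker φ).liftQ g hk ∘ₗ φ.quotKerEquivRange.symm.toLinearMap
  have h1 : ∀ e, g1 ⟨φ e, e, rfl⟩ = g e := fun e => by
    show (LinearMap.ker φ).liftQ g hk (φ.quotKerEquivRange.symm ⟨φ e, e, rfl⟩) = g e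
    rw [LinearMap.quotKerEquivRange_symm_apply_image φ e ⟨e, rfl⟩]
    rfl
  have h2 : ∀ v, ‖g1 v‖ ≤ C * ‖v‖ := by
    rintro ⟨_, e, rfl⟩
    rw [h1]
    exact h e
  obtain ⟨G, hG, hn⟩ := exists_extension_norm_eq (LinearMap.range φ) (g1.mkContinuous C h2)
  refine ⟨(InnerProductSpace.toDual ℂ K).symm G, ?_, fun e => ?_⟩
  · rw [LinearIsometryEquiv.norm_map, hn]
    exact LinearMap.mkContinuous_norm_le _ hC _
  · rw [InnerProductSpace.toDual_symm_apply, ← h1]
    exact hG ⟨φ e, e, rfl⟩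

variable {A H : Type} [Ring A] [StarRing A] [Algebra ℂ A] [StarModule ℂ A]
  [NormedAddCommGroup H] [InnerProductSpace ℂ H] [CompleteSpace H]
  (T : Tracial A H) {n : ℕ} {X : Fin n → A}

theorem wstar_star {y : A} (hy : y ∈ T.wstar X) : star y ∈ T.wstar X :=
  fun N hN => by rw [Tracial.op, map_star]; exact star_mem (hy N hN)

theorem wstar_lift (P : FreeAlgebra ℂ (Fin n)) : FreeAlgebra.lift ℂ X P ∈ T.wstar X := by
  intro N hN
  induction P using FreeAlgebra.induction with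
  | grade0 r => rw [AlgHom.commutes, Tracial.op, AlgHomClass.commutes]; exact N.toStarSubalgebra.algebraMap_mem r
  | grade1 j => rw [FreeAlgebra.lift_ι_apply]; exact hN j
  | mul a b ha hb => rw [map_mul, Tracial.op, map_mul]; exact N.toStarSubalgebra.mul_mem ha hb
  | add a b ha hb => rw [map_add, Tracial.op, map_add]; exact N.toStarSubalgebra.add_mem ha hb

/-- elements of `W^*(X)` -/
def pre (y : A) (hy : y ∈ T.wstar X) : T.Pre X := (⟨y, hy⟩ : T.wstar X)

theorem pre_inner (y z : T.Pre X) : inner ℂ y z = T.τ (star y.val * z.val) := rfl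

theorem pre_norm_sq (y : T.Pre X) : ‖y‖ ^ 2 = (T.τ (star y.val * y.val)).re :=
  (inner_self_eq_norm_sq (𝕜 := ℂ) y).symm

theorem pair_fun {a : A} (ha : a ∈ T.wstar X) :
    (fun y : T.Pre X => T.τ (y.val * a)) = innerSL ℂ (pre T (star a) (wstar_star T ha)) := by
  funext y
  rw [innerSL_apply_apply, pre_inner, T.tracial]
  show _ = T.τ (star (star a) * _)
  rw [star_star]

theorem pair_coe (y : T.Pre X) {a : A} (ha : a ∈ T.wstar X) :
    T.pair (y : T.L2 X) a = T.τ (y.val * a) := by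
  have h : UniformContinuous fun y : T.Pre X => T.τ (y.val * a) := by
    rw [pair_fun T ha]
    exact ContinuousLinearMap.uniformContinuous _
  exact Completion.extension_coe h y

theorem pair_eq (ξ : T.L2 X) {a : A} (ha : a ∈ T.wstar X) :
    T.pair ξ a = inner ℂ ((pre T (star a) (wstar_star T ha) : T.Pre X) : T.L2 X) ξ := by
  induction ξ using Completion.induction_on with
  | hp => exact isClosed_eq Completion.continuous_extension (by fun_prop)
  | ih y => rw [pair_coe T y ha, Completion.inner_coe]; exact congrFun (pair_fun T ha) y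

variable (X) in
/-- polynomials as elements of `W^*(X)` -/
def ph0 : (List (Fin n) →₀ ℂ) →ₗ[ℂ] T.Pre X :=
  LinearMap.codRestrict (T.wstar X) ((FreeAlgebra.lift ℂ X).toLinearMap ∘ₗ pol)
    fun _ => wstar_lift T _

variable (X) in
/-- polynomials as elements of `L²` -/
def ph : (List (Fin n) →₀ ℂ) →ₗ[ℂ] T.L2 X :=
  (Completion.toComplL : T.Pre X →L[ℂ] T.L2 X).toLinearMap ∘ₗ ph0 T X

theorem ph_apply (p : List (Fin n) →₀ ℂ) : ph T X p = (ph0 T X p : T.L2 X) := rfl

theorem ph0_val (p : List (Fin n) →₀ ℂ) : (ph0 T X p).val = FreeAlgebra.lift ℂ X (pol p) := rfl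

theorem ph_norm_sq (hX : ∀ j, IsSelfAdjoint (X j)) (p : List (Fin n) →₀ ℂ) :
    ‖ph T X p‖ ^ 2 = P087.normSq (P087.law T.τ X) p := by
  rw [ph_apply, Completion.norm_coe, pre_norm_sq, normSq_eq T hX, ph0_val]

theorem ph_norm_rev (hX : ∀ j, IsSelfAdjoint (X j)) (p : List (Fin n) →₀ ℂ) :
    ‖ph T X (rev p)‖ = ‖ph T X p‖ := by
  rw [← sq_eq_sq₀ (norm_nonneg _) (norm_nonneg _), ph_norm_sq T hX, ph_norm_sq T hX,
    normSq_eq T hX, normSq_eq T hX, lift_rev hX, star_star, T.tracial]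

theorem pair_pol (hX : ∀ j, IsSelfAdjoint (X j)) (ξ : T.L2 X) (p : List (Fin n) →₀ ℂ) :
    T.pair ξ (FreeAlgebra.lift ℂ X (pol p)) = inner ℂ (ph T X (rev p)) ξ := by
  rw [pair_eq T ξ (wstar_lift T _), ph_apply]
  congr 2
  exact Subtype.ext (lift_rev hX p).symm

variable (X) in
/-- one conjugate variable -/
def Cj (j : Fin n) (η : T.L2 X) : Prop := ∀ P, T.pair η (FreeAlgebra.lift ℂ X P) = tt T X j P

theorem isConj_iff (ξ : Fin n → T.L2 X) : T.IsConj X ξ ↔ ∀ j, Cj T X j (ξ j) := Iff.rfl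

theorem cj_bound (hX : ∀ j, IsSelfAdjoint (X j)) {j : Fin n} {η : T.L2 X} (h : Cj T X j η)
    (p : List (Fin n) →₀ ℂ) :
    ‖P087.dq (P087.law T.τ X) j p‖ ^ 2 ≤ ‖η‖ ^ 2 * P087.normSq (P087.law T.τ X) p := by
  rw [← tt_pol, ← h, pair_pol T hX, ← ph_norm_sq T hX, ← ph_norm_rev T hX, ← mul_pow, mul_comm]
  gcongr
  exact norm_inner_le_norm _ _

theorem cj_exists (hX : ∀ j, IsSelfAdjoint (X j)) {j : Fin n} {C : ℝ} (hC : 0 ≤ C)
    (h : ∀ p, ‖P087.dq (P087.law T.τ X) j p‖ ^ 2 ≤ C * P087.normSq (P087.law T.τ X) p) :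
    ∃ η, Cj T X j η ∧ ‖η‖ ^ 2 ≤ C := by
  obtain ⟨η, h1, h2⟩ := riesz (ph T X) (gl T X j) (√C) (Real.sqrt_nonneg _) fun p => by
    rw [gl_eq, Complex.norm_conj, tt_pol, ← ph_norm_rev T hX,
      ← sq_le_sq₀ (norm_nonneg _) (by positivity), mul_pow, Real.sq_sqrt hC, ph_norm_sq T hX]
    exact h _
  refine ⟨η, fun P => ?_, ?_⟩
  · obtain ⟨p, rfl⟩ := pol_surj P
    rw [pair_pol T hX, ← inner_conj_symm, h2, gl_eq, Complex.conj_conj, pol_rev_rev]
  · calc ‖η‖ ^ 2 ≤ √C ^ 2 := by gcongr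
      _ = C := Real.sq_sqrt hC

theorem conj_le (hX : ∀ j, IsSelfAdjoint (X j)) {j : Fin n} {η : T.L2 X} (h : Cj T X j η) :
    P087.conjNormSq (P087.law T.τ X) j ≤ ‖η‖ₑ ^ 2 := by
  refine (iInf₂_le (‖η‖₊ ^ 2) fun p => ?_).trans_eq ?_
  · simpa using cj_bound T hX h p
  · rw [ENNReal.coe_pow]; rfl

theorem fisher_eq (hX : ∀ j, IsSelfAdjoint (X j))
    (hu : ∀ j η η', Cj T X j η → Cj T X j η' → η = η') :
    T.fisher X = P087.fisher (P087.law T.τ X) := by
  unfold Tracial.fisher P087.fisher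
  split_ifs with h
  · refine Finset.sum_congr rfl fun j _ => le_antisymm ?_ (conj_le T hX (h.choose_spec j))
    refine le_iInf₂ fun C hC => ?_
    obtain ⟨η, h1, h2⟩ := cj_exists T hX C.2 hC
    rw [hu j _ _ (h.choose_spec j) h1]
    have : ‖η‖₊ ^ 2 ≤ C := by exact_mod_cast h2
    exact (ENNReal.coe_pow _ _).symm.trans_le (ENNReal.coe_le_coe.2 this)
  · by_contra hne
    refine h ?_
    have h1 : ∀ j, ∃ η, Cj T X j η := by
      intro j
      have h2 : P087.conjNormSq (P087.law T.τ X) j < ⊤ :=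
        (Finset.single_le_sum (fun _ _ => zero_le) (Finset.mem_univ j)).trans_lt
          (lt_top_iff_ne_top.2 (Ne.symm hne))
      simp only [P087.conjNormSq, iInf_lt_iff] at h2
      obtain ⟨C, hC, -⟩ := h2
      exact (cj_exists T hX C.2 hC).imp fun _ h => h.1
    choose η hη using h1
    exact ⟨η, hη⟩

/-- uniqueness, for sums of vector functionals -/
theorem cj_unique (hX : ∀ j, IsSelfAdjoint (X j)) (ξ : ℕ → H) (hξ : Summable fun i => ‖ξ i‖ ^ 2)
    (h : ∀ x : A, T.τ x = ∑' i, inner ℂ (ξ i) (T.op x (ξ i))) (j : Fin n)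
    (η η' : T.L2 X) (h1 : Cj T X j η) (h2 : Cj T X j η') : η = η' := by
  let B : StarSubalgebra ℂ A :=
    { (FreeAlgebra.lift ℂ X).range with
      star_mem' := by
        rintro _ ⟨P, rfl⟩
        obtain ⟨p, rfl⟩ := pol_surj P
        exact ⟨pol (rev p), lift_rev hX p⟩ }
  have hd : ∀ v : T.L2 X, v ∈ closure (Set.range (ph T X)) := by
    intro v
    induction v using Completion.induction_on with
    | hp => exact isClosed_closure
    | ih y =>
      refine Metric.mem_closure_iff.2 fun ε hε => ?_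
      obtain ⟨_, ⟨P, rfl⟩, hb⟩ := dens T ξ hξ h X B
        (fun j => ⟨FreeAlgebra.ι ℂ j, FreeAlgebra.lift_ι_apply _ _⟩) y.val y.2 ε hε
      obtain ⟨p, rfl⟩ := pol_surj P
      refine ⟨_, ⟨p, rfl⟩, ?_⟩
      rw [ph_apply, Completion.dist_eq, dist_eq_norm, ← Real.sqrt_sq (norm_nonneg _), pre_norm_sq]
      exact hb
  have h0 : ∀ v : T.L2 X, inner ℂ v η = inner ℂ v η' := by
    intro v
    refine closure_minimal (t := {v | inner ℂ v η = inner ℂ v η'}) ?_
      (isClosed_eq (by fun_prop) (by fun_prop)) (hd v)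
    rintro _ ⟨p, rfl⟩
    have h3 : ph T X p = ph T X (rev (rev p)) := by
      rw [ph_apply, ph_apply]
      congr 1
      exact Subtype.ext (congrArg (FreeAlgebra.lift ℂ X) (pol_rev_rev p).symm)
    show inner ℂ (ph T X p) η = inner ℂ (ph T X p) η'
    rw [h3, ← pair_pol T hX, ← pair_pol T hX, h1, h2]
  exact ext_inner_left ℂ h0

end Vale.Agent.P087L14

end
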