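import Vale.Agent.P087L14.Defs
import Mathlib.Analysis.Normed.Group.Tannery
import Mathlib.Analysis.CStarAlgebra.ContinuousFunctionalCalculus.Order

/-! Sums of vector functionals are positive and normal. -/

set_option autoImplicit false
set_option linter.all false

open Filter Topology
open scoped ComplexOrder

noncomputable section

namespace Vale.Agent.P087L14

variable {H : Type} [NormedAddCommGroup H] [InnerProductSpace ℂ H] [CompleteSpace H]

theorem inner_nonneg_of_nonneg {a : H →L[ℂ] H} (ha : 0 ≤ a) (v : H) : 0 ≤ inner ℂ v (a v) :=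
  ((ContinuousLinearMap.nonneg_iff_isPositive a).1 ha).inner_nonneg_right v

theorem nonneg_of_inner {a : H →L[ℂ] H} (h : ∀ v, 0 ≤ inner ℂ v (a v)) : 0 ≤ a := by
  rw [ContinuousLinearMap.nonneg_iff_isPositive, ContinuousLinearMap.isPositive_iff_complex]
  intro v
  have h1 := Complex.nonneg_iff.1 (h v)
  have h2 : inner ℂ (a v) v = starRingEnd ℂ (inner ℂ v (a v)) := (inner_conj_symm _ _).symm
  rw [h2]
  generalize inner ℂ v (a v) = z at h1
  refine ⟨?_, by simpa using h1.1⟩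
  apply Complex.ext
  · simp
  · simp [← h1.2]

theorem norm_sq_le_of_nonneg {a : H →L[ℂ] H} (ha : 0 ≤ a) (v : H) :
    ‖a v‖ ^ 2 ≤ ‖a‖ * (inner ℂ v (a v)).re := by
  obtain ⟨b, rfl⟩ := CStarAlgebra.nonneg_iff_eq_star_mul_self.1 ha
  have h1 : (inner ℂ v ((star b * b) v)).re = ‖b v‖ ^ 2 := by
    rw [ContinuousLinearMap.mul_apply, ContinuousLinearMap.star_eq_adjoint,
      ContinuousLinearMap.adjoint_inner_right, inner_self_eq_norm_sq_to_K]
    norm_cast
  have h2 : ‖(star b * b) v‖ ≤ ‖b‖ * ‖b v‖ := by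
    rw [ContinuousLinearMap.mul_apply]
    simpa using (star b).le_opNorm (b v)
  rw [h1, CStarRing.norm_star_mul_self]
  calc ‖(star b * b) v‖ ^ 2 ≤ (‖b‖ * ‖b v‖) ^ 2 := by gcongr
    _ = _ := by ring

/-- Vigier's theorem -/
theorem vigier {ι : Type} [Preorder ι] [IsDirectedOrder ι] [Nonempty ι] (x : ι → H →L[ℂ] H)
    (s : H →L[ℂ] H) (hm : Monotone x) (h0 : ∀ i, 0 ≤ x i) (hs : ∀ i, x i ≤ s) :
    ∃ y : H →L[ℂ] H, ∀ v, Tendsto (fun i => x i v) atTop (𝓝 (y v)) := by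
  have hc : ∀ v, ∃ w, Tendsto (fun i => x i v) atTop (𝓝 w) := by
    intro v
    apply cauchy_map_iff_exists_tendsto.1
    refine Metric.cauchy_iff.2 ⟨inferInstance, fun ε hε => ?_⟩
    set a : ι → ℝ := fun i => (inner ℂ v (x i v)).re with ha
    have hb : BddAbove (Set.range a) := by
      refine ⟨(inner ℂ v (s v)).re, ?_⟩
      rintro _ ⟨i, rfl⟩
      have := (Complex.nonneg_iff.1 (inner_nonneg_of_nonneg (sub_nonneg.2 (hs i)) v)).1
      simp only [ContinuousLinearMap.sub_apply, inner_sub_right, Complex.sub_re] at this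
      simp only [ha]; linarith
    have hδ : 0 < (ε / 3) ^ 2 / (‖s‖ + 1) := by positivity
    obtain ⟨i0, hi0⟩ := exists_lt_of_lt_ciSup
      (show (⨆ i, a i) - (ε / 3) ^ 2 / (‖s‖ + 1) < ⨆ i, a i by linarith)
    have key : ∀ i, i0 ≤ i → ‖x i v - x i0 v‖ ≤ ε / 3 := by
      intro i hi
      have hp : 0 ≤ x i - x i0 := sub_nonneg.2 (hm hi)
      have h1 := norm_sq_le_of_nonneg hp v
      have h2 : ‖x i - x i0‖ ≤ ‖s‖ := CStarAlgebra.norm_le_norm_of_nonneg_of_le hp
        ((sub_le_self _ (h0 i0)).trans (hs i))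
      have h3 : (inner ℂ v ((x i - x i0) v)).re = a i - a i0 := by
        simp [ha, inner_sub_right]
      have h4 : a i ≤ ⨆ i, a i := le_ciSup hb i
      have h5 : 0 ≤ a i - a i0 := h3 ▸ (Complex.nonneg_iff.1 (inner_nonneg_of_nonneg hp v)).1
      rw [h3, ContinuousLinearMap.sub_apply] at h1
      have h6 : ‖x i v - x i0 v‖ ^ 2 ≤ (ε / 3) ^ 2 := by
        calc _ ≤ ‖x i - x i0‖ * (a i - a i0) := h1
          _ ≤ (‖s‖ + 1) * ((ε / 3) ^ 2 / (‖s‖ + 1)) := by
            apply mul_le_mul (by linarith) (by linarith) h5 (by positivity)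
          _ = _ := by field_simp
      exact (pow_le_pow_iff_left₀ (norm_nonneg _) (by positivity) two_ne_zero).1 h6
    refine ⟨(fun i => x i v) '' Set.Ici i0, image_mem_map (Ici_mem_atTop i0), ?_⟩
    rintro _ ⟨i, hi, rfl⟩ _ ⟨j, hj, rfl⟩
    have h1 := key i hi
    have h2 := key j hj
    calc dist (x i v) (x j v) ≤ dist (x i v) (x i0 v) + dist (x j v) (x i0 v) :=
          dist_triangle_right _ _ _
      _ < ε := by rw [dist_eq_norm, dist_eq_norm]; linarith
  choose f hf using hc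
  have hbd : Bornology.IsBounded (Set.range x) := by
    refine isBounded_iff_forall_norm_le.2 ⟨‖s‖, ?_⟩
    rintro _ ⟨i, rfl⟩
    exact CStarAlgebra.norm_le_norm_of_nonneg_of_le (h0 i) (hs i)
  exact ⟨ContinuousLinearMap.ofTendstoOfBoundedRange (l := atTop) f x (tendsto_pi_nhds.2 hf) hbd,
    hf⟩

variable (M : VonNeumannAlgebra H) (τ : M.toStarSubalgebra →ₗ[ℂ] ℂ) (ξ : ℕ → H)

theorem vec_pos (h : ∀ x : M.toStarSubalgebra, τ x = ∑' i, inner ℂ (ξ i) ((x : H →L[ℂ] H) (ξ i)))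
    (x : M.toStarSubalgebra) (hx : 0 ≤ x) : 0 ≤ τ x := by
  rw [h]
  exact tsum_nonneg fun i => inner_nonneg_of_nonneg (show (0 : H →L[ℂ] H) ≤ x from hx) _

theorem vec_normal (hξ : Summable fun i => ‖ξ i‖ ^ 2)
    (h : ∀ x : M.toStarSubalgebra, τ x = ∑' i, inner ℂ (ξ i) ((x : H →L[ℂ] H) (ξ i)))
    (D : Set M.toStarSubalgebra) (s : M.toStarSubalgebra) (hne : D.Nonempty)
    (hd : DirectedOn (· ≤ ·) D) (h0 : ∀ x ∈ D, 0 ≤ x) (hs : IsLUB D s) :
    IsLUB (τ '' D) (τ s) := by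
  have mono : ∀ x y : M.toStarSubalgebra, x ≤ y → τ x ≤ τ y := fun x y hxy => by
    have := vec_pos M τ ξ h (y - x)
      (show (0 : H →L[ℂ] H) ≤ (y : H →L[ℂ] H) - x from sub_nonneg.2 hxy)
    rwa [map_sub, sub_nonneg] at this
  refine ⟨?_, fun z hz => ?_⟩
  · rintro _ ⟨x, hx, rfl⟩
    exact mono _ _ (hs.1 hx)
  haveI : Nonempty D := hne.to_subtype
  haveI : IsDirectedOrder D := hd.isDirectedOrder
  let x : D → H →L[ℂ] H := fun d => ((d : M.toStarSubalgebra) : H →L[ℂ] H)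
  have hx0 : ∀ d, 0 ≤ x d := fun d => h0 _ d.2
  have hxs : ∀ d, x d ≤ s := fun d => hs.1 d.2
  obtain ⟨y, hy⟩ := vigier x s (fun a b hab => hab) hx0 hxs
  have hyM : y ∈ M := by
    rw [← M.commutant_commutant, VonNeumannAlgebra.mem_commutant_iff]
    intro g hg
    ext v
    have h1 : Tendsto (fun d => g (x d v)) atTop (𝓝 (g (y v))) := (g.continuous.tendsto _).comp (hy v)
    have h2 : (fun d => g (x d v)) = fun d => x d (g v) := by
      funext d
      have := VonNeumannAlgebra.mem_commutant_iff.1 hg (x d) (d : M.toStarSubalgebra).2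
      exact (congrArg (fun T : H →L[ℂ] H => T v) this).symm
    rw [h2] at h1
    exact tendsto_nhds_unique h1 (hy (g v))
  have hsy : s ≤ ⟨y, hyM⟩ := by
    refine hs.2 fun d hd' => ?_
    show (d : H →L[ℂ] H) ≤ y
    refine sub_nonneg.1 (nonneg_of_inner fun v => ?_)
    have h1 : Tendsto (fun e : D => inner ℂ v (x e v - (d : H →L[ℂ] H) v)) atTop
        (𝓝 (inner ℂ v (y v - (d : H →L[ℂ] H) v))) :=
      Tendsto.inner tendsto_const_nhds ((hy v).sub tendsto_const_nhds)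
    refine ge_of_tendsto h1 ?_
    filter_upwards [Ici_mem_atTop (⟨d, hd'⟩ : D)] with e he
    exact inner_nonneg_of_nonneg (a := x e - (d : H →L[ℂ] H)) (sub_nonneg.2 he) v
  refine (mono _ _ hsy).trans ?_
  have hlim : Tendsto (fun d : D => τ d) atTop (𝓝 (τ ⟨y, hyM⟩)) := by
    simp only [h]
    refine tendsto_tsum_of_dominated_convergence (bound := fun i => ‖(s : H →L[ℂ] H)‖ * ‖ξ i‖ ^ 2)
      (hξ.mul_left _) (fun i => Tendsto.inner tendsto_const_nhds (hy (ξ i)))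
      (Eventually.of_forall fun d i => ?_)
    have h1 : ‖x d‖ ≤ ‖(s : H →L[ℂ] H)‖ :=
      CStarAlgebra.norm_le_norm_of_nonneg_of_le (hx0 d) (hxs d)
    calc ‖inner ℂ (ξ i) (x d (ξ i))‖ ≤ ‖ξ i‖ * ‖x d (ξ i)‖ := norm_inner_le_norm _ _
      _ ≤ ‖ξ i‖ * (‖(s : H →L[ℂ] H)‖ * ‖ξ i‖) := by
        gcongr
        exact ((x d).le_opNorm _).trans (by gcongr)
      _ = _ := by ring
  exact le_of_tendsto' hlim fun d => hz ⟨d, d.2, rfl⟩

end Vale.Agent.P087L14

end
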