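import Vale.Agent.P087L14.Defs
import Vale.Agent.P087.Bdl.B1

/-! Polynomials and moments. -/

set_option autoImplicit false
set_option linter.all false

open scoped TensorProduct

noncomputable section

namespace Vale.Agent.P087L14

variable {n : ℕ}

theorem basis_eq (w : FreeMonoid (Fin n)) :
    FreeAlgebra.basisFreeMonoid ℂ (Fin n) w = mono w.toList := by
  have h : ∀ l : List (Fin n), FreeMonoid.lift (FreeAlgebra.ι ℂ) (FreeMonoid.ofList l) =
      (mono l : FreeAlgebra ℂ (Fin n)) := fun l => FreeMonoid.lift_apply _ _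
  rw [← h, FreeMonoid.ofList_toList]
  simp [FreeAlgebra.basisFreeMonoid, FreeAlgebra.equivMonoidAlgebraFreeMonoid]

theorem dq_mono (j : Fin n) (w : List (Fin n)) : dq j (mono w) = ∑ l : Fin w.length,
    if w.get l = j then mono (w.take l) ⊗ₜ mono (w.drop (l + 1)) else 0 := by
  have := basis_eq (FreeMonoid.ofList w)
  rw [FreeMonoid.toList_ofList] at this
  rw [← this, dq, Module.Basis.constr_basis]
  rfl

/-- polynomials from coefficients -/
def pol : (List (Fin n) →₀ ℂ) →ₗ[ℂ] FreeAlgebra ℂ (Fin n) := Finsupp.linearCombination ℂ mono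

theorem pol_surj (P : FreeAlgebra ℂ (Fin n)) : ∃ p, pol p = P := by
  have h : P ∈ Submodule.span ℂ (Set.range (mono (n := n))) := by
    have : Set.range (FreeAlgebra.basisFreeMonoid ℂ (Fin n)) ⊆ Set.range mono := by
      rintro _ ⟨w, rfl⟩
      exact ⟨_, (basis_eq w).symm⟩
    exact Submodule.span_mono this ((FreeAlgebra.basisFreeMonoid ℂ (Fin n)).mem_span P)
  rw [← Finsupp.range_linearCombination] at h
  exact h

/-- the adjoint polynomial -/
def rev (p : List (Fin n) →₀ ℂ) : List (Fin n) →₀ ℂ :=
  p.sum fun w a => Finsupp.single w.reverse (starRingEnd ℂ a)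

variable {A H : Type} [Ring A] [StarRing A] [Algebra ℂ A] [StarModule ℂ A]
  [NormedAddCommGroup H] [InnerProductSpace ℂ H] [CompleteSpace H]
  (T : Tracial A H) (X : Fin n → A)

theorem lift_mono (w : List (Fin n)) : FreeAlgebra.lift ℂ X (mono w) = (w.map X).prod := by
  rw [mono, map_list_prod, List.map_map]
  congr 2
  funext j
  simp

theorem lift_pol (p : List (Fin n) →₀ ℂ) :
    FreeAlgebra.lift ℂ X (pol p) = p.sum fun w a => a • (w.map X).prod := by
  simp only [pol, Finsupp.linearCombination_apply, Finsupp.sum, map_sum, map_smul, lift_mono]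

/-- the functional -/
def tt (j : Fin n) : FreeAlgebra ℂ (Fin n) →ₗ[ℂ] ℂ :=
  LinearMap.mul' ℂ ℂ ∘ₗ TensorProduct.map (T.ev X) (T.ev X) ∘ₗ dq j

theorem tt_mono (j : Fin n) (w : List (Fin n)) :
    tt T X j (mono w) = P087.dqWord (P087.law T.τ X) j w := by
  simp only [tt, LinearMap.comp_apply, dq_mono, map_sum, P087.dqWord]
  refine Finset.sum_congr rfl fun l _ => ?_
  split_ifs
  · simp [Tracial.ev, lift_mono, P087.law]
  · simp

theorem tt_pol (j : Fin n) (p : List (Fin n) →₀ ℂ) :
    tt T X j (pol p) = P087.dq (P087.law T.τ X) j p := by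
  simp only [pol, Finsupp.linearCombination_apply, Finsupp.sum, map_sum, map_smul, tt_mono,
    P087.dq, smul_eq_mul]

variable {X}

theorem star_word (hX : ∀ j, IsSelfAdjoint (X j)) (w : List (Fin n)) :
    star (w.map X).prod = (w.reverse.map X).prod := by
  induction w with
  | nil => simp
  | cons a w ih => simp [star_mul, ih, (hX a).star_eq]

theorem lift_rev (hX : ∀ j, IsSelfAdjoint (X j)) (p : List (Fin n) →₀ ℂ) :
    FreeAlgebra.lift ℂ X (pol (rev p)) = star (FreeAlgebra.lift ℂ X (pol p)) := by
  rw [lift_pol X p]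
  simp only [rev, Finsupp.sum, map_sum, star_sum, star_smul, star_word hX]
  refine Finset.sum_congr rfl fun w _ => ?_
  rw [lift_pol, Finsupp.sum_single_index (by simp)]
  rfl

theorem normSq_eq (hX : ∀ j, IsSelfAdjoint (X j)) (p : List (Fin n) →₀ ℂ) :
    P087.normSq (P087.law T.τ X) p =
      (T.τ (star (FreeAlgebra.lift ℂ X (pol p)) * FreeAlgebra.lift ℂ X (pol p))).re := by
  rw [P087.normSq, lift_pol]
  congr 1
  simp only [Finsupp.sum, star_sum, star_smul, star_word hX, Finset.sum_mul, Finset.mul_sum,
    map_sum, smul_mul_assoc, mul_smul_comm, map_smul, smul_eq_mul, P087.law, List.map_append,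
    List.prod_append]
  rw [Finset.sum_comm]
  refine Finset.sum_congr rfl fun v _ => Finset.sum_congr rfl fun w _ => ?_
  rw [Complex.star_def]
  ring

/-- the conjugate of the functional on adjoint polynomials, as a linear map -/
def gl (T : Tracial A H) (X : Fin n → A) (j : Fin n) : (List (Fin n) →₀ ℂ) →ₗ[ℂ] ℂ :=
  Finsupp.linearCombination ℂ fun w => starRingEnd ℂ (tt T X j (mono w.reverse))

theorem gl_eq (j : Fin n) (p : List (Fin n) →₀ ℂ) :
    gl T X j p = starRingEnd ℂ (tt T X j (pol (rev p))) := by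
  simp only [gl, rev, Finsupp.linearCombination_apply, Finsupp.sum, map_sum, smul_eq_mul]
  refine Finset.sum_congr rfl fun w _ => ?_
  rw [pol, Finsupp.linearCombination_single, map_smul, smul_eq_mul, map_mul, Complex.conj_conj]

theorem pol_rev_rev (p : List (Fin n) →₀ ℂ) : pol (rev (rev p)) = pol p := by
  congr 1
  induction p using Finsupp.induction_linear with
  | zero => simp [rev]
  | add p q hp hq =>
    have h : ∀ p q : List (Fin n) →₀ ℂ, rev (p + q) = rev p + rev q := fun p q =>
      Finsupp.sum_add_index' (by simp) (by simp [Finsupp.single_add])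
    rw [h, h, hp, hq]
  | single w a =>
    have h : ∀ (w : List (Fin n)) (a : ℂ), rev (Finsupp.single w a) =
        Finsupp.single w.reverse (starRingEnd ℂ a) := fun w a =>
      Finsupp.sum_single_index (by simp)
    rw [h, h, List.reverse_reverse, Complex.conj_conj]

end Vale.Agent.P087L14

end
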